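import Crest.Agent.X262.Emb71.Fn

/-!
# Row 262, road B, EMB (helper71), part 2: a configuration on the graph and its old part

* `fn_up`, `fn_down` : sections on the graph and sections pulled back from the old factors;
* `mem_res`, `injOn_iff` : configurations and trees;
* `lift`, `descStmt`.
-/

set_option autoImplicit false
set_option linter.unusedSectionVars false

noncomputable section

namespace Crest.Agent.X262.Emb71

open Polynomial Crest.Agent.X262.Vb Crest.Agent.X262.Emb Crest.Agent.X262.Tree87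
open Crest.Agent.X262.Bub96 (Tr)
open Crest.Agent.X262.Bub96.Tr

section Cfg

variable {J : Type} [Fintype J] [DecidableEq J] {io : J → Type} [∀ j, Fintype (io j)]
  [∀ j, DecidableEq (io j)] {I I₀ E k : Type} [Fintype I] [Fintype I₀] [Field E] [Algebra ℂ E]
  [Field k] [Algebra ℂ k] {d κ : J → ℕ} {N : ℕ} {z : Cfg io I E} (D : TD d N z k)

theorem mem_V (hκ : ∀ j, κ j ≤ N) {u : I → k} : u ∈ mapS D.α (z.V κ) ↔
    ∃ φ, Fn κ D.t φ ∧ ∀ q, φ (D.sp q) = (∏ j, D.c q j ^ κ j) * u q := by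
  rw [← mul_mem_sclS_iff fun q => chr_ne' (D.c_ne q) κ]
  refine (D.mem_V hκ).trans ⟨fun ⟨s, h1, h2⟩ => ⟨_, ⟨s, h1, fun _ => rfl⟩, h2⟩, ?_⟩
  rintro ⟨φ, ⟨s, h1, h2⟩, h3⟩
  exact ⟨s, h1, fun q => (h2 _).trans (h3 q)⟩

theorem mem_res (hκ : ∀ j, κ j ≤ N) (g : I₀ → I) {w : I₀ → E} : w ∈ (z.res g).V κ ↔
    ∃ φ, Fn κ D.t φ ∧ ∀ q, φ (D.sp (g q)) = (∏ j, D.c (g q) j ^ κ j) * D.α (w q) := by
  rw [← map_mem_mapS_iff D.α]
  change _ ∈ mapS D.α ((z.V κ).map _) ↔ _
  rw [mapS_map]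
  constructor
  · rintro ⟨u, h1, h2⟩
    obtain ⟨φ, h3, h4⟩ := (mem_V D hκ).1 h1
    exact ⟨φ, h3, fun q => (h4 _).trans (congrArg (_ * ·) (congrFun h2 q))⟩
  · rintro ⟨φ, h1, h2⟩
    refine ⟨fun q => (∏ j, D.c q j ^ κ j)⁻¹ * φ (D.sp q), (mem_V D hκ).2 ⟨φ, h1, fun q => ?_⟩,
      funext fun q => ?_⟩
    · rw [mul_inv_cancel_left₀ (chr_ne' (D.c_ne q) κ)]
    · change _ * φ (D.sp (g q)) = _
      rw [h2, inv_mul_cancel_left₀ (chr_ne' (D.c_ne _) κ)]

theorem injOn_iff (hκ : ∀ j, κ j ≤ N) (g : I₀ → I) : InjOn g (z.V κ) ↔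
    ∀ φ, Fn κ D.t φ → (∀ q, φ (D.sp (g q)) = 0) → ∀ x, φ x = 0 := by
  constructor
  · intro h φ h1 h2
    have h3 : (fun q => (∏ j, D.c q j ^ κ j)⁻¹ * φ (D.sp q)) ∈ mapS D.α (z.V κ) :=
      (mem_V D hκ).2 ⟨φ, h1, fun q => by rw [mul_inv_cancel_left₀ (chr_ne' (D.c_ne q) κ)]⟩
    have h4 : (fun q => (∏ j, D.c q j ^ κ j)⁻¹ * φ (D.sp q)) ∈ mapS D.α ⊥ :=
      (mem_mapS_iff D.α).2 fun l hl => h _ ((mem_mapS_iff D.α).1 h3 l hl) fun q => by
        simp only [h2, mul_zero, map_zero]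
    have h5 : mapS D.α (⊥ : Submodule E (I → E)) ≤ ⊥ := Submodule.span_le.2 (by
      rintro _ ⟨u, hu, rfl⟩
      obtain rfl : u = 0 := hu
      exact funext fun _ => map_zero _)
    obtain ⟨s, h6, h7⟩ := h1
    intro x
    rw [← h7, D.eq_zero hκ h6 fun q => ?_, val_zero]
    exact (h7 _).trans ((mul_eq_zero.1 (congrFun (h5 h4) q)).resolve_left
      (inv_ne_zero (chr_ne' (D.c_ne q) κ)))
  · intro h w h1 h2
    obtain ⟨φ, h3, h4⟩ := (mem_V D hκ).1 (map_mem_mapS D.α h1)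
    have h5 := h φ h3 fun q => by rw [h4, h2, map_zero, mul_zero]
    funext q
    have h6 := h4 q
    rw [h5, eq_comm, mul_eq_zero, map_eq_zero] at h6
    exact h6.resolve_left (chr_ne' (D.c_ne q) κ)

/-- the diagonal map -/
def dg (c : I₀ → E) : (I₀ → E) →ₗ[E] (I₀ → E) := LinearMap.pi fun x => c x • LinearMap.proj x

theorem mem_mapS_dg (β : E →ₐ[ℂ] k) (c : I₀ → E) (U : Submodule E (I₀ → E)) {w : I₀ → k} :
    w ∈ mapS β (U.comap (dg c)) ↔ (fun q => β (c q) * w q) ∈ mapS β U := by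
  rw [mem_mapS_iff, mem_mapS_iff]
  refine forall₂_congr fun l hl => ?_
  simp only [hl _ _]
  rfl

end Cfg

variable {J : Type} [Fintype J] [DecidableEq J] {io : Option J → Type} [∀ j, Fintype (io j)]
  [∀ j, DecidableEq (io j)] {A A' : Type} [Fintype A] [Fintype A']
  {T : Tgt (bs io) A} {T' : Tgt io A'} {d : J → ℕ} (G : Gr T T' d)

/-- the old degree which corresponds to `κ` in the chart `l` -/
def od (κ : Option J → ℕ) (l : G.L) : J → ℕ := fun j => κ (some j) + κ none * G.m l j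

theorem od_eq (κ : Option J → ℕ) (l : G.L) :
    exd (od G κ l) 0 + κ none • Pi.single none 1 = κ + κ none • exd (G.m l) 0 :=
  funext fun j => by cases j <;> simp [exd, od]

section Tree

variable {G} {k : Type} [Field k] [Algebra ℂ k] [IsAlgClosed k] {t : Tr k (Option J) io}
  (ht : t.OK) {lam : t.Pt → G.L → k}
  (hl : ∀ x l a, pv (prP (t.ev x)) (G.q l a) = lam x l * t.ev x none a) {κ : Option J → ℕ}

include ht hl

theorem fn_q (l : G.L) (a : io none) (n : ℕ) :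
    Fn (n • exd (G.m l) 0) t fun x => (lam x l * t.ev x none a) ^ n :=
  ((fn_pv ht (mh_upq (G.hom l a))).congr rfl fun x => by rw [pv_upq, hl]).pow ht n

theorem fn_up {φ : t.Pt → k} (h : Fn κ t φ) (l : G.L) :
    Fn (exd (od G κ l) 0) t fun x => lam x l ^ κ none * φ x :=
  Fn.div ht (fun a => (fn_ev ht none a).pow ht (κ none))
    (fun x => (ht.ev_ne x none).imp fun _ h => pow_ne_zero _ h) fun a =>
      (h.mul ht (fn_q ht hl l a _)).congr (od_eq G κ l).symm fun x => by ring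

theorem fn_down (hc : ∀ x, ∃ l, lam x l ≠ 0) {I₀ : Type} {Y : I₀ → t.Pt} {w : I₀ → k}
    (hY : ∀ l l' φ, Fn (exd (od G κ l + κ none • G.m l') 0) t φ → (∀ q, φ (Y q) = 0) →
      ∀ x, φ x = 0)
    (h : ∀ l, ∃ φ, Fn (exd (od G κ l) 0) t φ ∧ ∀ q, φ (Y q) = lam (Y q) l ^ κ none * w q) :
    ∃ φ, Fn κ t φ ∧ ∀ q, φ (Y q) = w q := by
  choose s h1 h2 using h
  choose c hc using hc
  have h3 : ∀ l l' x, s l x * lam x l' ^ κ none = s l' x * lam x l ^ κ none := by
    intro l l' x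
    obtain ⟨a, ha⟩ := ht.ev_ne x none
    have h4 := hY l l' _ ((((h1 l).mul ht (fn_q ht hl l' a (κ none))).congr
      (funext fun j => by cases j <;> simp [exd, od]) fun _ => rfl).sub
      (((h1 l').mul ht (fn_q ht hl l a (κ none))).congr
        (funext fun j => by cases j <;> simp [exd, od, add_right_comm]) fun _ => rfl))
      (fun q => by rw [h2, h2]; ring) x
    refine mul_right_cancel₀ (pow_ne_zero (κ none) ha) ?_
    linear_combination h4
  have h4 : ∀ l x, s (c x) x / lam x (c x) ^ κ none * lam x l ^ κ none = s l x := fun l x => by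
    rw [div_mul_eq_mul_div, h3, mul_div_cancel_right₀ _ (pow_ne_zero _ (hc x))]
  refine ⟨fun x => s (c x) x / lam x (c x) ^ κ none,
    Fn.div ht (fun p : G.L × io none => fn_q ht hl p.1 p.2 (κ none)) (fun x => ?_) fun p =>
      ((h1 p.1).mul ht ((fn_ev ht none p.2).pow ht (κ none))).congr (od_eq G κ p.1) fun x => ?_,
    fun q => ?_⟩
  · obtain ⟨a, ha⟩ := ht.ev_ne x none
    exact ⟨(c x, a), pow_ne_zero _ (mul_ne_zero (hc x) ha)⟩
  · rw [mul_pow, ← mul_assoc, h4]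
  · change s _ _ / _ = _
    rw [h2, mul_div_cancel_left₀ _ (pow_ne_zero _ (hc _))]

end Tree

section Lift

variable {I I₀ E E₀ : Type} [Field E] [Algebra ℂ E] [Field E₀] [Algebra ℂ E₀]

open Classical in
/-- the new coordinates -/
def uu (y : Pnt (bs io) E) : io none → E := fun a =>
  if h : ∃ p : G.L × io none, pv y (G.q p.1 p.2) ≠ 0 then pv y (G.q h.choose.1 a) else 0

open Classical in
/-- the multipliers -/
def lm (y : Pnt (bs io) E) (l : G.L) : E :=
  if h : ∃ p : G.L × io none, pv y (G.q p.1 p.2) ≠ 0 then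
    pv y (G.q l h.choose.2) / pv y (G.q h.choose.1 h.choose.2) else 0

/-- the lift of a configuration to the graph -/
def lift (I E : Type) [Field E] [Algebra ℂ E] (z : Cfg (bs io) I E) : Cfg io I E where
  y q := exP (z.y q) (uu G (z.y q))
  V κ := ⨅ l, (z.V (od G κ l)).comap (dg fun q => lm G (z.y q) l ^ κ none)

variable {G}

theorem pv_gau (β : E₀ →ₐ[ℂ] E) {c : J → E} (hc : ∀ j, c j ≠ 0) (y : Pnt (bs io) E₀) (l : G.L)
    (a : io none) : pv (fun j i => c j * β (y j i)) (G.q l a) =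
      (∏ j, c j ^ G.m l j) * β (pv y (G.q l a)) := by
  rw [(MZ.of_MH (G.hom l a)).pv_scl hc, pv_map]
  simp only [zpow_natCast]

/-- the lift at one point -/
theorem exists_mu (β : E₀ →ₐ[ℂ] E) {c : J → E} (hc : ∀ j, c j ≠ 0) {y₀ : Pnt (bs io) E₀}
    {y : Pnt io E} (hy : prP y = fun j i => c j * β (y₀ j i)) {lam : G.L → E}
    (hl : ∀ l a, pv (prP y) (G.q l a) = lam l * y none a) (h0 : ∃ l a, pv (prP y) (G.q l a) ≠ 0) :
    ∃ μ : E, μ ≠ 0 ∧ (∀ a, y none a = μ * β (uu G y₀ a)) ∧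
      ∀ l, (∏ j, c j ^ G.m l j) * β (lm G y₀ l) = lam l * μ := by
  simp only [hy, pv_gau β hc] at hl h0
  have h : ∃ p : G.L × io none, pv y₀ (G.q p.1 p.2) ≠ 0 := by
    obtain ⟨l, a, h1⟩ := h0
    exact ⟨(l, a), fun h2 => h1 (by rw [h2, map_zero, mul_zero])⟩
  have h1 : β (pv y₀ (G.q h.choose.1 h.choose.2)) ≠ 0 := (map_ne_zero β).2 h.choose_spec
  have h2 := hl h.choose.1 h.choose.2
  have h3 := chr_ne' hc (G.m h.choose.1)
  have h4 : lam h.choose.1 ≠ 0 := left_ne_zero_of_mul (h2 ▸ mul_ne_zero h3 h1)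
  refine ⟨(∏ j, c j ^ G.m h.choose.1 j) / lam h.choose.1, div_ne_zero h3 h4, fun a => ?_,
    fun l => ?_⟩
  · rw [uu, dif_pos h, div_mul_eq_mul_div, hl, mul_div_cancel_left₀ _ h4]
  · rw [lm, dif_pos h, map_div₀, ← mul_div_assoc, hl, ← mul_div_assoc, div_eq_div_iff h1 h4]
    linear_combination -lam l * h2

variable [Fintype I] [Fintype I₀] {n N N₁ : ℕ} {z : Cfg io I E} {g : I₀ → I}

/-- the configuration on the graph is determined by its part of new degree zero -/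
theorem det (hz : TL (exd d n) N z) (hO : z.On T') (hk : ∀ a j, T'.k a j ≤ N)
    (hN : ∀ l l' j, N₁ + N₁ * G.m l j + N₁ * G.m l' j ≤ N) (hN₁ : N₁ ≤ N)
    (hg : ∀ κ : J → ℕ, (∀ j, κ j ≤ N) → InjOn g (z.V (exd κ 0))) {lam : I → G.L → E}
    (hl : ∀ q l a, pv (prP (z.y q)) (G.q l a) = lam q l * z.y q none a) :
    (∀ q, ∃ l a, pv (prP (z.y q)) (G.q l a) ≠ 0) ∧ ∀ κ : Option J → ℕ, (∀ j, κ j ≤ N₁) →
      InjOn g (z.V κ) ∧ ∀ w, w ∈ (z.res g).V κ ↔
        ∀ l, (fun q => lam (g q) l ^ κ none * w q) ∈ (z.res g).V (exd (od G κ l) 0) := by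
  obtain ⟨k, _, _, _, ⟨D⟩⟩ := hz
  have h1 := D.on hk hO
  choose lt hlt using fun x => exists_lam G (h1 x) (nz_ev D.t D.ok x)
  have h2 := cov_tree G D.ok D.deg h1
  have h3 : ∀ x, ∃ l, lt x l ≠ 0 := fun x => by
    obtain ⟨l, a, h⟩ := h2 x
    exact ⟨l, left_ne_zero_of_mul (hlt x l a ▸ h)⟩
  have h4 : ∀ q l a, pv (prP (D.t.ev (D.sp q))) (G.q l a) =
      (∏ j, D.c q (some j) ^ G.m l j) * D.α (pv (prP (z.y q)) (G.q l a)) := fun q l a => by
    rw [D.ev_sp]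
    exact pv_gau D.α (fun j => D.c_ne q (some j)) (prP (z.y q)) l a
  have h5 : ∀ q l, lt (D.sp q) l * D.c q none =
      (∏ j, D.c q (some j) ^ G.m l j) * D.α (lam q l) := fun q l => by
    obtain ⟨a, ha⟩ := D.nz q none
    have h := h4 q l a
    rw [hlt, hl, D.ev_sp, map_mul] at h
    refine mul_right_cancel₀ ((map_ne_zero D.α).2 ha) ?_
    linear_combination h
  have h6 : ∀ {κ : J → ℕ}, (∀ j, κ j ≤ N) → ∀ j, exd κ 0 j ≤ N := fun h j => by
    cases j
    · exact Nat.zero_le _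
    · exact h _
  refine ⟨fun q => ?_, fun κ hκ => ?_⟩
  · obtain ⟨l, a, h⟩ := h2 (D.sp q)
    exact ⟨l, a, fun h' => h (by rw [h4, h', map_zero, mul_zero])⟩
  have h7 : ∀ l l' j, (od G κ l + κ none • G.m l') j ≤ N := fun l l' j =>
    le_trans (add_le_add (add_le_add (hκ _) (Nat.mul_le_mul_right _ (hκ _)))
      (Nat.mul_le_mul_right _ (hκ _))) (hN l l' j)
  have h8 : ∀ l j, od G κ l j ≤ N := fun l j => le_trans (Nat.le_add_right _ _) (h7 l l j)
  have h9 : ∀ j, κ j ≤ N := fun j => (hκ j).trans hN₁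
  have h10 : ∀ q l, (∏ j, D.c q j ^ exd (od G κ l) 0 j) * D.α (lam q l) ^ κ none =
      lt (D.sp q) l ^ κ none * ∏ j, D.c q j ^ κ j := fun q l => by
    simp only [Fintype.prod_option, exd, od, pow_zero, one_mul, pow_add, pow_mul',
      Finset.prod_mul_distrib, Finset.prod_pow]
    rw [mul_assoc, ← mul_pow, ← h5, ← mul_assoc, ← mul_pow, mul_comm]
  refine ⟨(injOn_iff D h9 g).2 fun φ e1 e2 x => ?_, fun w => ⟨fun h l => ?_, fun h => ?_⟩⟩
  · obtain ⟨l, e3⟩ := h3 x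
    have e4 := (injOn_iff D (h6 (h8 l)) g).1 (hg _ (h8 l)) _ (fn_up D.ok hlt e1 l)
      (fun q => by rw [e2, mul_zero]) x
    exact (mul_eq_zero.1 e4).resolve_left (pow_ne_zero _ e3)
  · obtain ⟨φ, e1, e2⟩ := (mem_res D h9 g).1 h
    refine (mem_res D (h6 (h8 l)) g).2 ⟨_, fn_up D.ok hlt e1 l, fun q => ?_⟩
    rw [e2, map_mul, map_pow, ← mul_assoc, ← mul_assoc, h10]
  · refine (mem_res D h9 g).2 (fn_down D.ok hlt h3
      (fun l l' => (injOn_iff D (h6 (h7 l l')) g).1 (hg _ (h7 l l'))) fun l => ?_)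
    obtain ⟨φ, e1, e2⟩ := (mem_res D (h6 (h8 l)) g).1 (h l)
    refine ⟨φ, e1, fun q => ?_⟩
    rw [e2, map_mul, map_pow, ← mul_assoc, ← mul_assoc, h10]

end Lift

/-- **DESC** -/
theorem descStmt : DescStmt := by
  intro J _ _ io _ _ A A' _ _ T T' d G
  refine ⟨lift G, fun N₁ => ?_⟩
  obtain ⟨M, hM⟩ := Finite.exists_le fun p : G.L × J => G.m p.1 p.2
  obtain ⟨K, hK⟩ := Finite.exists_le fun p : A' × Option J => T'.k p.1 p.2
  refine ⟨N₁ + N₁ * M + N₁ * M + K, ?_⟩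
  intro I I₀ E E₀ _ _ _ _ _ _ n N z g z₀ β hN hz hO hg ⟨c, hc, h1, h2⟩
  have h3 : ∀ l l' j, N₁ + N₁ * G.m l j + N₁ * G.m l' j ≤ N := fun l l' j =>
    le_trans (add_le_add (add_le_add le_rfl (Nat.mul_le_mul_left _ (hM (l, j))))
      (Nat.mul_le_mul_left _ (hM (l', j)))) (by omega)
  choose lam hl using fun q => exists_lam G (hO q) (hz.nz q)
  obtain ⟨h4, h5⟩ := det hz hO (fun a j => (hK (a, j)).trans (by omega)) h3 (by omega) hg hl
  choose μ h6 h7 h8 using fun q => exists_mu β (hc q) (h1 q) (hl (g q)) (h4 (g q))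
  refine ⟨fun κ hκ => (h5 κ hκ).1, fun q j => j.elim (μ q) (c q), fun q j => ?_, fun q => ?_,
    fun κ hκ => ?_⟩
  · cases j
    · exact h6 q
    · exact hc q _
  · funext j i
    cases j
    · exact h7 q i
    · exact congrFun (congrFun (h1 q) _) i
  · ext w
    have h9 : ∀ q, ∏ j, Option.elim j (μ q) (c q) ^ κ j ≠ 0 := fun q => chr_ne' (fun j => by
      cases j
      · exact h6 q
      · exact hc q _) κ
    change _ ↔ w ∈ sclS _ (mapS β (⨅ l, _))
    rw [(h5 κ hκ).2, mem_sclS_iff h9, mapS_iInf, Submodule.mem_iInf]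
    refine forall_congr' fun l => ?_
    have h10 : ∀ j, od G κ l j ≤ N := fun j =>
      le_trans (add_le_add (hκ _) (Nat.mul_le_mul_right _ (hκ _)))
        ((Nat.le_add_right _ _).trans (h3 l l j))
    have h11 : (z.res g).V (exd (od G κ l) 0) =
        sclS (fun q => ∏ j, c q j ^ od G κ l j) (mapS β (z₀.V (od G κ l))) := h2 _ h10
    rw [mem_mapS_dg, h11]
    refine Iff.trans (Iff.of_eq ?_) (mul_mem_sclS_iff fun q => chr_ne' (hc q) (od G κ l))
    congr 1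
    funext q
    have e1 := h9 q
    have e2 := congrArg (· ^ κ none) (h8 q l)
    simp only [Fintype.prod_option, Option.elim, od, pow_add, pow_mul', Finset.prod_mul_distrib,
      Finset.prod_pow, map_pow, mul_pow] at e1 e2 ⊢
    have e3 := left_ne_zero_of_mul e1
    have e4 := right_ne_zero_of_mul e1
    field_simp
    linear_combination -w q * e2

end Crest.Agent.X262.Emb71
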