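import Crest.Agent.X262.Emb11.Defs

/-!
# Row 262, road B, EMB (helper71), part 1: functions on trees, the projection of a tree

* `Fn κ t φ`  : the function `φ` on the points of `t` is a section of `O(κ)`; `Fn.mul`, `Fn.pow`,
  `Fn.sub`, `fn_pv`, `Fn.div` (saturation);
* `prT t`     : the tree of the old factors; `cov_tree`;
* `mh_upq`, `pv_upq`, `exists_lam` : the graph equations at a point.
-/

set_option autoImplicit false
set_option linter.unusedSectionVars false

noncomputable section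

namespace Crest.Agent.X262.Emb71

open Polynomial Crest.Agent.X262.Vb Crest.Agent.X262.Emb Crest.Agent.X262.Tree87
open Crest.Agent.X262.Bub96 (hv Tr hv_mul hv_add hv_smul)
open Crest.Agent.X262.Bub96.Tr

/-- division of binary forms by a family without common zero -/
theorem exists_div {k ι : Type} [Field k] [IsAlgClosed k] {m : ℕ} {e : ι → ℕ} {ψ s : ι → k[X]}
    {φ : Option k → k} (hψ : ∀ i, (ψ i).natDegree ≤ e i) (hs : ∀ i, (s i).natDegree ≤ m + e i)
    (h0 : ∀ x, ∃ i, hv (e i) (ψ i) x ≠ 0)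
    (h : ∀ i x, hv (m + e i) (s i) x = φ x * hv (e i) (ψ i) x) :
    ∃ σ : k[X], σ.natDegree ≤ m ∧ ∀ x, hv m σ x = φ x := by
  obtain ⟨p, hp⟩ := (IsPrincipalIdealRing.principal (Ideal.span (Set.range ψ))).principal
  have h1 : p.degree = 0 := by
    by_contra h1
    obtain ⟨x, hx⟩ := IsAlgClosed.exists_root p h1
    obtain ⟨i, hi⟩ := h0 (some x)
    have h2 : ψ i ∈ Ideal.span (Set.range ψ) := Ideal.subset_span ⟨i, rfl⟩
    rw [hp] at h2
    exact hi (hx.dvd (Ideal.mem_span_singleton.1 h2))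
  have h2 : (1 : k[X]) ∈ Ideal.span (Set.range ψ) := by
    rw [hp]
    exact Ideal.mem_span_singleton.2 (isUnit_iff_degree_eq_zero.2 h1).dvd
  have h3 : ∀ u ∈ Ideal.span (Set.range ψ), ∃ σ : k[X], ∀ x, σ.eval x = φ (some x) * u.eval x := by
    intro u hu
    induction hu using Submodule.span_induction with
    | mem u hu =>
      obtain ⟨i, rfl⟩ := hu
      exact ⟨s i, fun x => h i (some x)⟩
    | zero => exact ⟨0, by simp⟩
    | add u v _ _ hu hv =>
      obtain ⟨a, ha⟩ := hu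
      obtain ⟨b, hb⟩ := hv
      exact ⟨a + b, fun x => by rw [eval_add, eval_add, ha, hb, mul_add]⟩
    | smul c u _ hu =>
      obtain ⟨a, ha⟩ := hu
      exact ⟨c * a, fun x => by rw [smul_eq_mul, eval_mul, eval_mul, ha, mul_left_comm]⟩
  obtain ⟨σ, hσ⟩ := h3 1 h2
  simp only [eval_one, mul_one] at hσ
  obtain ⟨i, hi⟩ := h0 none
  have h4 : s i = σ * ψ i := Polynomial.funext fun x => by
    rw [eval_mul, hσ]
    exact h i (some x)
  have h5 : σ.natDegree ≤ m := by
    by_cases h6 : σ = 0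
    · simp [h6]
    · have h7 := hs i
      rw [h4, natDegree_mul h6 fun h8 => hi (by simp [h8, hv]),
        le_antisymm (hψ i) (le_natDegree_of_ne_zero hi)] at h7
      omega
  refine ⟨σ, h5, fun x => ?_⟩
  rcases x with _ | x
  · have h6 := h i none
    rw [h4, hv_mul h5 (hψ i)] at h6
    exact mul_right_cancel₀ hi h6
  · exact hσ x

section Fn

variable {k : Type} [Field k] {J : Type} [Fintype J] {io : J → Type} {t : Tr k J io}
  {κ κ' : J → ℕ} {φ φ' : t.Pt → k}

/-- `φ` is a section of `O(κ)` -/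
def Fn (κ : J → ℕ) (t : Tr k J io) (φ : t.Pt → k) : Prop :=
  ∃ s, t.IsSec κ s ∧ ∀ x, val κ t s x = φ x

theorem dot_add' (κ κ' d : J → ℕ) : dot (κ + κ') d = dot κ d + dot κ' d := by
  simp [dot, add_mul, Finset.sum_add_distrib]

theorem Fn.same (h : Fn κ t φ) {x y : t.Pt} (hxy : t.Same x y) : φ x = φ y := by
  obtain ⟨s, h1, h2⟩ := h
  rw [← h2, ← h2, hxy.2 κ s h1]

theorem Fn.congr (h : Fn κ t φ) (e : κ = κ') (h' : ∀ x, φ x = φ' x) : Fn κ' t φ' := by
  obtain ⟨s, h1, h2⟩ := h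
  exact ⟨s, e ▸ h1, fun x => e ▸ (h2 x).trans (h' x)⟩

theorem fn_of (ht : t.OK) (h1 : ∀ v, ∃ σ : k[X], σ.natDegree ≤ dot κ (t.vd v) ∧
    ∀ x, hv (dot κ (t.vd v)) σ x = φ (v, x)) (h2 : ∀ x y, t.Same x y → φ x = φ y) : Fn κ t φ := by
  choose s h3 h4 using h1
  exact ⟨s, isSec_of_same ht h3 fun x y hxy => (h4 x.1 x.2).trans ((h2 x y hxy).trans
    (h4 y.1 y.2).symm), fun x => h4 x.1 x.2⟩

theorem Fn.mul (ht : t.OK) (h : Fn κ t φ) (h' : Fn κ' t φ') :
    Fn (κ + κ') t fun x => φ x * φ' x := by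
  refine fn_of ht (fun v => ?_) fun x y hxy => by rw [h.same hxy, h'.same hxy]
  obtain ⟨s, h1, h2⟩ := h
  obtain ⟨s', h3, h4⟩ := h'
  rw [dot_add']
  exact ⟨s v * s' v, natDegree_mul_le.trans (add_le_add (h1.natDegree_le v) (h3.natDegree_le v)),
    fun x => by rw [hv_mul (h1.natDegree_le v) (h3.natDegree_le v), ← h2, ← h4]; rfl⟩

theorem fn_one (ht : t.OK) : Fn 0 t fun _ => 1 :=
  fn_of ht (fun v => ⟨1, by simp, fun x => by cases x <;> simp [hv, dot]⟩) fun _ _ _ => rfl

theorem Fn.pow (ht : t.OK) (h : Fn κ t φ) (n : ℕ) : Fn (n • κ) t fun x => φ x ^ n := by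
  induction n with
  | zero => exact (fn_one ht).congr (zero_smul _ _).symm fun x => (pow_zero _).symm
  | succ n ih => exact (ih.mul ht h).congr (succ_nsmul κ n).symm fun x => (pow_succ _ _).symm

theorem Fn.sub (h : Fn κ t φ) (h' : Fn κ t φ') : Fn κ t fun x => φ x - φ' x := by
  obtain ⟨s, h1, h2⟩ := h
  obtain ⟨s', h3, h4⟩ := h'
  exact ⟨s + (-1 : k) • s', h1.add (h3.smul _), fun x => by
    rw [val_add, val_smul, h2, h4]; ring⟩

/-- saturation -/
theorem Fn.div [IsAlgClosed k] (ht : t.OK) {ι : Type} {e : ι → J → ℕ} {ψ : ι → t.Pt → k}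
    (hψ : ∀ i, Fn (e i) t (ψ i)) (h0 : ∀ x, ∃ i, ψ i x ≠ 0)
    (h : ∀ i, Fn (κ + e i) t fun x => φ x * ψ i x) : Fn κ t φ := by
  refine fn_of ht (fun v => ?_) fun x y hxy => ?_
  · choose p h1 h2 using hψ
    choose s h3 h4 using h
    refine exists_div (φ := fun x => φ (v, x)) (e := fun i => dot (e i) (t.vd v))
      (ψ := fun i => p i v) (s := fun i => s i v) (fun i => (h1 i).natDegree_le v)
      (fun i => dot_add' κ (e i) _ ▸ (h3 i).natDegree_le v)
      (fun x => (h0 (v, x)).imp fun i hi => by rwa [← h2] at hi) fun i x => ?_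
    rw [← dot_add']
    exact (h4 i (v, x)).trans (congrArg (φ (v, x) * ·) (h2 i (v, x)).symm)
  · obtain ⟨i, hi⟩ := h0 x
    have h1 := (h i).same hxy
    rw [← (hψ i).same hxy] at h1
    exact mul_right_cancel₀ hi h1

variable [DecidableEq J] [∀ j, Fintype (io j)] [Algebra ℂ k]

theorem fn_pv (ht : t.OK) {q : MvPolynomial (Vr io) ℂ} (h : MH q κ) :
    Fn κ t fun x => pv (t.ev x) q := ⟨_, isSec_sb h ht⟩

theorem fn_ev (ht : t.OK) (j : J) (i : io j) : Fn (Pi.single j 1) t fun x => t.ev x j i :=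
  (fn_pv (q := MvPolynomial.X ⟨j, i⟩) ht (MvPolynomial.isWeightedHomogeneous_X ℂ _ _)).congr rfl
    fun x => by simp [pv]

end Fn

variable {J : Type} [Fintype J] [DecidableEq J] {io : Option J → Type} [∀ j, Fintype (io j)]
  [∀ j, DecidableEq (io j)] {A A' : Type} [Fintype A] [Fintype A']

section Pr

variable {k : Type} [Field k]

/-- the tree of the old factors -/
def prT : Tr k (Option J) io → Tr k J (bs io)
  | .leaf d g => .leaf (fun j => d (some j)) fun j => g (some j)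
  | .glue T p S => .glue (prT T) p (prT S)

/-- its vertices -/
def vxE : (t : Tr k (Option J) io) → t.Vx ≃ (prT t).Vx
  | .leaf _ _ => Equiv.refl Unit
  | .glue T _ S => Equiv.sumCongr (vxE T) (vxE S)

theorem vxE_root : (t : Tr k (Option J) io) → vxE t t.root = (prT t).root
  | .leaf _ _ => rfl
  | .glue T _ _ => congrArg Sum.inl (vxE_root T)

theorem ev_prT : (t : Tr k (Option J) io) → ∀ (v : t.Vx) (x : Option k),
    (prT t).ev (vxE t v, x) = prP (t.ev (v, x))
  | .leaf _ _, _, _ => rfl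
  | .glue T _ _, Sum.inl a, x => ev_prT T a x
  | .glue _ _ S, Sum.inr a, x => ev_prT S a x

theorem hole_prT : (t : Tr k (Option J) io) → ∀ v : t.Vx, (prT t).hole (vxE t v) = t.hole v
  | .leaf _ _, _ => rfl
  | .glue T p _, Sum.inl a => by
    ext x
    change x ∈ (prT T).hole (vxE T a) ∨ (vxE T a = (prT T).root ∧ x = p) ↔
      x ∈ T.hole a ∨ (a = T.root ∧ x = p)
    rw [hole_prT T a, ← vxE_root, (vxE T).injective.eq_iff]
  | .glue _ _ S, Sum.inr a => hole_prT S a

theorem deg_prT : (t : Tr k (Option J) io) → ∀ j, (prT t).deg j = t.deg (some j)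
  | .leaf _ _, _ => rfl
  | .glue T _ S, j => congrArg₂ (· + ·) (deg_prT T j) (deg_prT S j)

theorem ok_prT : {t : Tr k (Option J) io} → t.OK → (prT t).OK
  | .leaf _ _, h => ⟨fun j => h.1 (some j), fun j => h.2 (some j)⟩
  | .glue T p S, h => ⟨ok_prT h.1, ok_prT h.2.1, by
      rw [← vxE_root, hole_prT]
      exact h.2.2.1, fun j i => by
      rw [← vxE_root, ← vxE_root, ev_prT, ev_prT]
      exact h.2.2.2 (some j) i⟩

end Pr

variable {E : Type} [Field E] [Algebra ℂ E]

theorem pv_upq (y : Pnt io E) (q : MvPolynomial (Vr (bs io)) ℂ) : pv y (upq q) = pv (prP y) q :=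
  MvPolynomial.aeval_rename _ _ _

theorem exd_add (a b : J → ℕ) (m n : ℕ) : exd a m + exd b n = exd (a + b) (m + n) :=
  funext fun j => by cases j <;> rfl

theorem mh_upq {q : MvPolynomial (Vr (bs io)) ℂ} {κ : J → ℕ} (h : MH q κ) :
    MH (upq q) (exd κ 0) := by
  intro s hs
  obtain ⟨u, rfl, hu⟩ := MvPolynomial.coeff_rename_ne_zero _ _ _ hs
  rw [← h hu]
  clear hs hu
  induction u using Finsupp.induction_linear with
  | zero => funext j; cases j <;> simp [exd]
  | add a b ha hb => rw [Finsupp.mapDomain_add, map_add, map_add, ha, hb, exd_add]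
  | single v n =>
    rw [Finsupp.mapDomain_single, Finsupp.weight_single, Finsupp.weight_single]
    funext j
    cases j <;> simp [exd, Pi.single_apply]

theorem pv_eq_zero {B : Type} {F : B → MvPolynomial (Vr io) ℂ} {y : Pnt io E}
    (h : ∀ b, pv y (F b) = 0) {q : MvPolynomial (Vr io) ℂ} (hq : q ∈ Ideal.span (Set.range F)) :
    pv y q = 0 :=
  (Ideal.span_le (I := RingHom.ker (MvPolynomial.aeval fun v : Vr io => y v.1 v.2))).2
    (by rintro _ ⟨b, rfl⟩; exact h b) hq

variable {T : Tgt (bs io) A} {T' : Tgt io A'} {d : J → ℕ} (G : Gr T T' d)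

include G in
theorem on_prP {y : Pnt io E} (h : T'.On y) : T.On (prP y) := fun a =>
  (pv_upq y _).symm.trans (pv_eq_zero h (G.idF a))

/-- the graph equations at a point -/
theorem exists_lam {y : Pnt io E} (h : T'.On y) (h0 : NZ y) (l : G.L) :
    ∃ c : E, ∀ a, pv (prP y) (G.q l a) = c * y none a := by
  obtain ⟨b, hb⟩ := h0 none
  refine ⟨pv (prP y) (G.q l b) / y none b, fun a => ?_⟩
  have h1 := pv_eq_zero h (G.idq l a b)
  have h2 : ∀ a, pv y (MvPolynomial.X ⟨none, a⟩) = y none a := fun a => by simp [pv]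
  rw [pv, map_sub, map_mul, map_mul, sub_eq_zero] at h1
  change pv y _ * pv y _ = pv y _ * pv y _ at h1
  rw [h2, h2, pv_upq, pv_upq] at h1
  field_simp
  linear_combination -h1

/-- every point of a tree on the graph lies in a chart -/
theorem cov_tree [IsAlgClosed E] {t : Tr E (Option J) io} (ht : t.OK) {n : ℕ}
    (hd : t.deg = exd d n) (h : ∀ x, T'.On (t.ev x)) (x : t.Pt) :
    ∃ l a, pv (prP (t.ev x)) (G.q l a) ≠ 0 := by
  have h1 := G.cov E (prT t) (ok_prT ht) (funext fun j => by rw [deg_prT, hd]; rfl)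
    (fun y => by
      obtain ⟨v, u⟩ := y
      obtain ⟨v, rfl⟩ := (vxE t).surjective v
      rw [ev_prT]
      exact on_prP G (h _)) (vxE t x.1, x.2)
  rwa [ev_prT] at h1

end Crest.Agent.X262.Emb71
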