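import Crest.Agent.X262.Emb71.Desc

/-!
# Row 262, road B, EMB (helper71), part 3: proportional sections, the bound for the new degree

* `Fn.const`, `propStmt`, `bndStmt`.
-/

set_option autoImplicit false
set_option linter.unusedSectionVars false

noncomputable section

namespace Crest.Agent.X262.Emb71

open Polynomial Crest.Agent.X262.Vb Crest.Agent.X262.Emb Crest.Agent.X262.Tree87
open Crest.Agent.X262.Bub96 (Tr hv)
open Crest.Agent.X262.Bub96.Tr

section Prp

variable {J : Type} [Fintype J] {io : J → Type} {k : Type} [Field k]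

theorem val_const : ∀ {t : Tr k J io} {s : t.Vx → k[X]}, t.IsSec 0 s → ∀ x,
    val 0 t s x = val 0 t s (t.root, none)
  | .leaf d g, s, h, x => by
    have h1 : dot 0 d = 0 := by simp [dot]
    have h2 : (s ()).natDegree ≤ dot 0 d := h
    change hv (dot 0 d) (s ()) x.2 = hv (dot 0 d) (s ()) none
    rw [h1] at h2 ⊢
    rw [eq_C_of_natDegree_le_zero h2]
    cases x.2 <;> simp [hv]
  | .glue _ _ _, _, h, (Sum.inl a, x) => val_const h.1 (a, x)
  | .glue _ _ _, _, h, (Sum.inr a, x) =>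
    (val_const h.2.1 (a, x)).trans (h.2.2.trans (val_const h.1 _))

theorem Fn.const {t : Tr k J io} {φ : t.Pt → k} (h : Fn 0 t φ) (x y : t.Pt) : φ x = φ y := by
  obtain ⟨s, h1, h2⟩ := h
  rw [← h2, ← h2, val_const h1, val_const h1 y]

variable [DecidableEq J] [∀ j, Fintype (io j)] [Algebra ℂ k]

/-- sections which are proportional to the coordinates at every point of a tree -/
theorem exists_prop [IsAlgClosed k] {t : Tr k J io} (ht : t.OK) {j : J} {φ : io j → t.Pt → k}
    (h : ∀ a, Fn (Pi.single j 1) t (φ a))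
    (h' : ∀ x a b, φ a x * t.ev x j b = φ b x * t.ev x j a) :
    ∃ μ : k, ∀ a x, φ a x = μ * t.ev x j a := by
  choose c hc using fun x => ht.ev_ne x j
  have h1 : ∀ a x, φ a x = φ (c x) x / t.ev x j (c x) * t.ev x j a := fun a x => by
    rw [div_mul_eq_mul_div, h', mul_div_cancel_right₀ _ (hc x)]
  have h2 : Fn 0 t fun x => φ (c x) x / t.ev x j (c x) :=
    Fn.div ht (fn_ev ht j) (fun x => ⟨_, hc x⟩) fun a => (h a).congr (zero_add _).symm (h1 a)
  exact ⟨_, fun a x => by rw [h1, h2.const x (t.root, none)]⟩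

variable [∀ j, DecidableEq (io j)] {I E E' : Type} [Fintype I] [Field E] [Algebra ℂ E] [Field E']
  [Algebra ℂ E'] {d : J → ℕ} {N : ℕ} {z : Cfg io I E}

theorem prod_single (c : J → k) (j : J) : ∏ i, c i ^ (Pi.single j 1 : J → ℕ) i = c j := by
  rw [Finset.prod_eq_single j (fun i _ h => by rw [Pi.single_eq_of_ne h, pow_zero]) (by simp),
    Pi.single_eq_same, pow_one]

theorem cross {j : J} (hz : TL d N z) (hN : 2 ≤ N) {s : io j → I → E}
    (h : ∀ a, s a ∈ z.V (Pi.single j 1)) (h' : ∀ q a b, s a q * z.y q j b = s b q * z.y q j a)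
    (a b : io j) (q r : I) : s a q * z.y r j b = s b r * z.y q j a := by
  obtain ⟨k, _, _, _, ⟨D⟩⟩ := hz
  have h1 : ∀ i, (Pi.single j 1 : J → ℕ) i ≤ 1 := fun i => by
    rw [Pi.single_apply]
    split_ifs <;> omega
  choose φ h2 h3 using fun a => (mem_V D fun i => (h1 i).trans (by omega)).1 (map_mem_mapS D.α (h a))
  simp only [prod_single] at h3
  obtain ⟨μ, h4⟩ := exists_prop D.ok h2 fun x a b => by
    obtain ⟨σ, e1, e2⟩ := ((h2 a).mul D.ok (fn_ev D.ok j b)).sub ((h2 b).mul D.ok (fn_ev D.ok j a))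
    rw [← sub_eq_zero]
    refine (e2 x).symm.trans ?_
    rw [D.eq_zero (fun i => (add_le_add (h1 i) (h1 i)).trans hN) e1 fun q => ?_, val_zero]
    have e3 := congrArg D.α (h' q a b)
    rw [map_mul, map_mul] at e3
    refine (e2 _).trans ?_
    simp only [h3, D.ev_sp]
    linear_combination D.c q j ^ 2 * e3
  have h5 : ∀ a q, D.α (s a q) = μ * D.α (z.y q j a) := fun a q =>
    mul_left_cancel₀ (D.c_ne q j) (by rw [← h3, h4, D.ev_sp, mul_left_comm])
  refine D.α.injective ?_
  change D.α _ = D.α _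
  rw [map_mul, map_mul, h5, h5]
  ring

theorem eq_zero_of_rt (β : E →ₐ[ℂ] E') {x : E'} (h : ∀ l, IsRt β l → l x = 0) : x = 0 := by
  have h1 : (fun _ : Unit => x) ∈ mapS β ⊥ :=
    (mem_mapS_iff β).2 fun l hl => _root_.funext fun _ => h l hl
  have h2 : mapS β (⊥ : Submodule E (Unit → E)) ≤ ⊥ := Submodule.span_le.2 (by
    rintro _ ⟨u, hu, rfl⟩
    obtain rfl : u = 0 := hu
    exact _root_.funext fun _ => map_zero _)
  exact congrFun (h2 h1) ()

end Prp

/-- **PROP** -/
theorem propStmt : PropStmt := by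
  intro J _ _ io _ _ I E E' _ _ _ _ _ d N z β j hz hN s h h'
  rcases isEmpty_or_nonempty I with _ | ⟨⟨r⟩⟩
  · exact ⟨0, fun _ q => isEmptyElim q⟩
  obtain ⟨b, hb⟩ := hz.nz r j
  refine ⟨s b r / β (z.y r j b), fun a q => ?_⟩
  rw [div_mul_eq_mul_div, eq_div_iff ((map_ne_zero β).2 hb), ← sub_eq_zero]
  refine eq_zero_of_rt β fun l hl => ?_
  have h1 : ∀ x y, l (x * β y) = l x * y := fun x y => by rw [mul_comm, hl, mul_comm]
  rw [map_sub, h1, h1, sub_eq_zero]
  exact cross (s := fun a q => l (s a q)) hz hN (fun a => (mem_mapS_iff β).1 (h a) l hl)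
    (fun q a b => by rw [← h1, ← h1, h']) a b q r

/-- a multiple of a family without common zero has at least its degree -/
theorem le_of_mul {k ι : Type} [Field k] [IsAlgClosed k] {n D : ℕ} {g Q : ι → k[X]} {φ : k → k}
    (hg : ∀ i, (g i).natDegree ≤ n) (hQ : ∀ i, (Q i).natDegree ≤ D)
    (h0 : ∀ x, ∃ i, hv n (g i) x ≠ 0) (h : ∀ i x, (Q i).eval x = φ x * (g i).eval x) {x : k}
    (hx : φ x ≠ 0) : n ≤ D := by
  obtain ⟨σ, -, h1⟩ := exists_div (m := D + 1) (e := fun _ => n) (φ := fun x => x.elim 0 φ) hg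
    (fun i => (hQ i).trans (by omega)) h0 fun i x => by
      cases x
      · exact (coeff_eq_zero_of_natDegree_lt ((hQ i).trans_lt (by omega))).trans (zero_mul _).symm
      · exact h i _
  obtain ⟨i, hi⟩ := h0 none
  have h2 : Q i = σ * g i := Polynomial.funext fun x => by
    rw [eval_mul, h]
    exact congrArg (· * _) (h1 (some x)).symm
  have h3 := hQ i
  rw [h2, natDegree_mul (fun e => hx ((h1 (some x)).symm.trans (by simp [e, hv])))
    (fun e => hi (by simp [e, hv])), le_antisymm (hg i) (le_natDegree_of_ne_zero hi)] at h3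
  omega

/-- **BND** -/
theorem bndStmt : BndStmt := by
  intro J _ _ io _ _ A A' _ _ T T' d G
  obtain ⟨M, hM⟩ := Finite.exists_le fun p : G.L × J => G.m p.1 p.2
  refine ⟨M * ∑ j, d j, ?_⟩
  intro I E _ _ _ n N z hk ⟨k, _, _, _, ⟨D⟩⟩ hO
  have h1 := D.on hk hO
  have h2 := cov_tree G D.ok D.deg h1
  refine ⟨?_, fun q => ?_⟩
  · have h3 : ∀ j, ∑ v, D.t.vd v j = exd d n j := fun j => by rw [sum_vd, D.deg]
    calc n = ∑ v, D.t.vd v none := (h3 none).symm
      _ ≤ ∑ v, M * ∑ j, D.t.vd v (some j) := Finset.sum_le_sum fun v _ => ?_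
      _ = M * ∑ j, d j := by
        rw [← Finset.mul_sum, Finset.sum_comm]
        exact congrArg (M * ·) (Finset.sum_congr rfl fun j _ => h3 (some j))
    obtain ⟨l, a, h4⟩ := h2 (v, some 0)
    choose lt hlt using fun x => exists_lam G (h1 (v, some x)) (nz_ev D.t D.ok _) l
    choose Q h5 h6 using fun a => fn_pv D.ok (mh_upq (G.hom l a))
    refine (le_of_mul (φ := lt) (x := 0) (D.ok.natDegree_le v none) (fun a => (h5 a).natDegree_le v)
      (fun x => D.ok.ev_ne (v, x) none) (fun a x => (h6 a (v, some x)).trans ?_)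
      (left_ne_zero_of_mul (hlt 0 a ▸ h4))).trans ?_
    · exact (pv_upq _ _).trans (hlt x a)
    · rw [dot, Fintype.sum_option, Finset.mul_sum]
      exact ((congrArg (· + _) (zero_mul _)).trans (zero_add _)).trans_le
        (Finset.sum_le_sum fun j _ => Nat.mul_le_mul_right _ (hM (l, j)))
  · obtain ⟨l, a, h⟩ := h2 (D.sp q)
    refine ⟨l, a, fun h' => h ?_⟩
    rw [D.ev_sp]
    exact (pv_gau D.α (fun j => D.c_ne q (some j)) (prP (z.y q)) l a).trans
      (by rw [h', map_zero, mul_zero])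

end Crest.Agent.X262.Emb71
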