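import Crest.Agent.X262.Emb71.Bnd
import Crest.Agent.X262.Bub96.NormA

/-!
# Row 262, road B, EMB (helper71), part 4: the lift of a tree to the graph

* `exists_prim`, `exists_rescale` : primitive parts, gluing up to scalars;
* `fn_subst`, `q_cross`, `exists_g` : the new coordinates as sections on the tree;
* `exists_gen`, `prop_of`, `cert` : base point free pencils, `H⁰(κ)^ι → H⁰(2 κ)` is onto.
-/

set_option autoImplicit false
set_option linter.unusedSectionVars false

noncomputable section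

namespace Crest.Agent.X262.Emb71

open Polynomial Crest.Agent.X262.Vb Crest.Agent.X262.Emb Crest.Agent.X262.Tree87
open Crest.Agent.X262.Bub96 (Tr hv hv_mul hv_zero)
open Crest.Agent.X262.Bub96.Tr hiding val_const

/-- the primitive part of a family of forms -/
theorem exists_prim {k ι : Type} [Field k] [Fintype ι] {D : ℕ} {Q : ι → k[X]}
    (hQ : ∀ a, (Q a).natDegree ≤ D) (h0 : ∃ a, Q a ≠ 0) : ∃ n ≤ D, ∃ (g : ι → k[X]) (h : k[X]),
      h ≠ 0 ∧ (∀ a, Q a = h * g a) ∧ (∀ a, (g a).natDegree ≤ n) ∧ ∀ x, ∃ a, hv n (g a) x ≠ 0 := by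
  classical
  obtain ⟨p, hp⟩ := (IsPrincipalIdealRing.principal (Ideal.span (Set.range Q))).principal
  have h1 : ∀ a, p ∣ Q a := fun a => by
    have h2 : Q a ∈ Ideal.span (Set.range Q) := Ideal.subset_span ⟨a, rfl⟩
    rw [hp] at h2
    exact Ideal.mem_span_singleton.1 h2
  choose g hg using h1
  obtain ⟨a, ha⟩ := h0
  have h2 : p ≠ 0 := left_ne_zero_of_mul (hg a ▸ ha)
  obtain ⟨b, h3, h4⟩ := (Finset.univ.filter fun a => g a ≠ 0).exists_max_image
    (fun a => (g a).natDegree) ⟨a, by simpa using right_ne_zero_of_mul (hg a ▸ ha)⟩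
  have h5 : g b ≠ 0 := (Finset.mem_filter.1 h3).2
  refine ⟨(g b).natDegree, (natDegree_le_of_dvd ⟨p, (hg b).trans (mul_comm _ _)⟩
    (hg b ▸ mul_ne_zero h2 h5)).trans (hQ b), g, p, h2, hg, fun c => ?_, fun x => ?_⟩
  · by_cases hc : g c = 0
    · simp [hc]
    · exact h4 c (by simpa using hc)
  · rcases x with _ | x
    · exact ⟨b, leadingCoeff_ne_zero.2 h5⟩
    · by_contra h6
      push Not at h6
      have h7 : p ∈ Ideal.span (Set.range Q) := hp ▸ Submodule.mem_span_singleton_self p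
      obtain ⟨u, hu⟩ := Ideal.mem_span_range_iff_exists_fun.1 h7
      have h8 : ∑ a, u a * g a = 1 := mul_left_cancel₀ h2 (by
        rw [mul_one, Finset.mul_sum]
        exact (Finset.sum_congr rfl fun a _ => by rw [hg, mul_left_comm]).trans hu)
      have h9 := congrArg (eval x) h8
      rw [eval_finsetSum, eval_one, Finset.sum_eq_zero fun a _ => by
        rw [eval_mul, show (g a).eval x = 0 from h6 a, mul_zero]] at h9
      exact zero_ne_one h9

theorem exists_gen {k ι X : Type} [Field k] [Infinite k] [Fintype ι] (Z : Finset X)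
    (g : ι → X → k) (h : ∀ x ∈ Z, ∃ a, g a x ≠ 0) :
    ∃ c : ι → k, ∀ x ∈ Z, ∑ a, c a * g a x ≠ 0 := by
  classical
  by_contra h1
  push Not at h1
  have h2 : ∏ x ∈ Z, (∑ a, MvPolynomial.X a * MvPolynomial.C (g a x) : MvPolynomial ι k) = 0 :=
    MvPolynomial.funext fun c => by
      obtain ⟨x, h2, h3⟩ := h1 c
      rw [map_prod, map_zero]
      exact Finset.prod_eq_zero h2 (by simpa using h3)
  obtain ⟨x, h3, h4⟩ := Finset.prod_eq_zero_iff.1 h2
  obtain ⟨a, ha⟩ := h x h3
  have h5 := congrArg (MvPolynomial.eval (Pi.single a 1)) h4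
  simp [Pi.single_apply] at h5
  exact ha h5

section Fn

variable {k : Type} [Field k] {J : Type} [Fintype J] {io : J → Type} {ι : Type}
  {κ : J → ℕ}

theorem exists_rescale : ∀ {t : Tr k J io}, t.OK → ∀ g : ι → t.Vx → k[X],
    (∀ a v, (g a v).natDegree ≤ dot κ (t.vd v)) →
    (∀ x y, t.Same x y → ∃ c, c ≠ 0 ∧ ∀ a, val κ t (g a) y = c * val κ t (g a) x) →
    ∃ c : t.Vx → k, (∀ v, c v ≠ 0) ∧ ∀ a, t.IsSec κ fun v => c v • g a v
  | .leaf _ _, _, g, h, _ => ⟨fun _ => 1, fun _ => one_ne_zero, fun a =>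
      (natDegree_smul_le _ _).trans (h a ())⟩
  | .glue T p S, ht, g, h, h' => by
    obtain ⟨c, h1, h2⟩ := exists_rescale ht.1 (fun a v => g a (Sum.inl v))
      (fun a v => h a (Sum.inl v)) fun x y hxy => h' _ _ (hxy.inl p S)
    obtain ⟨c', h3, h4⟩ := exists_rescale ht.2.1 (fun a v => g a (Sum.inr v))
      (fun a v => h a (Sum.inr v)) fun x y hxy => h' _ _ (hxy.inr T p)
    obtain ⟨μ, h5, h6⟩ := h' _ _ (same_node ht)
    refine ⟨Sum.elim c fun v => c T.root / (c' S.root * μ) * c' v, ?_, fun a => ⟨h2 a, ?_, ?_⟩⟩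
    · rintro (v | v)
      · exact h1 v
      · exact mul_ne_zero (div_ne_zero (h1 _) (mul_ne_zero (h3 _) h5)) (h3 v)
    · simp only [Sum.elim_inr, mul_smul]
      exact (h4 a).smul (c T.root / (c' S.root * μ))
    · refine (Bub96.hv_smul _ _ _ _).trans (Eq.trans ?_ (Bub96.hv_smul _ _ _ _).symm)
      have h7 := h3 S.root
      refine (congrArg (_ * ·) (h6 a)).trans ?_
      simp only [Sum.elim_inr, Sum.elim_inl]
      field_simp
      rfl

variable {t : Tr k J io} {φ φ' : t.Pt → k}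

theorem Fn.add (h : Fn κ t φ) (h' : Fn κ t φ') : Fn κ t fun x => φ x + φ' x := by
  obtain ⟨s, h1, h2⟩ := h
  obtain ⟨s', h3, h4⟩ := h'
  exact ⟨s + s', h1.add h3, fun x => by rw [val_add, h2, h4]⟩

theorem Fn.smul (h : Fn κ t φ) (c : k) : Fn κ t fun x => c * φ x := by
  obtain ⟨s, h1, h2⟩ := h
  exact ⟨c • s, h1.smul c, fun x => by rw [val_smul, h2]⟩

variable (κ t) in
/-- the space of sections as functions -/
def FS : Submodule k (t.Pt → k) where
  carrier := {φ | Fn κ t φ}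
  add_mem' := Fn.add
  zero_mem' := ⟨0, isSec_zero _ _, val_zero _ _⟩
  smul_mem' c _ h := Fn.smul h c

theorem fn_sum {s : Finset ι} {ψ : ι → t.Pt → k} (h : ∀ i ∈ s, Fn κ t (ψ i)) :
    Fn κ t fun x => ∑ i ∈ s, ψ i x :=
  Fn.congr ((FS κ t).sum_mem h) rfl fun x => Finset.sum_apply x s ψ

theorem fn_prod (ht : t.OK) {s : Finset ι} {e : ι → J → ℕ} {ψ : ι → t.Pt → k}
    (h : ∀ i ∈ s, Fn (e i) t (ψ i)) : Fn (∑ i ∈ s, e i) t fun x => ∏ i ∈ s, ψ i x := by
  classical
  induction s using Finset.induction_on with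
  | empty => simpa using fn_one ht
  | insert a s ha ih =>
    simpa only [Finset.sum_insert ha, Finset.prod_insert ha] using
      (h a (Finset.mem_insert_self _ _)).mul ht (ih fun i hi => h i (Finset.mem_insert_of_mem hi))

theorem finrank_FS [Infinite k] (ht : t.OK) : Module.finrank k (FS κ t) = dot κ t.deg + 1 := by
  have h : FS κ t = (t.Sec κ).map (vals t id κ) := Submodule.ext fun φ =>
    ⟨fun ⟨s, h1, h2⟩ => ⟨s, h1, _root_.funext h2⟩, fun ⟨s, h1, h2⟩ => ⟨s, h1, congrFun h2⟩⟩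
  rw [h, ← finrank_sec κ ht, ← LinearMap.range_domRestrict]
  exact LinearMap.finrank_range_of_inj ((injective_iff_map_eq_zero _).2 fun s hs =>
    Subtype.ext (eq_zero_of_val (congrFun hs)))

/-- sections proportional to a family without common zero -/
theorem prop_of [IsAlgClosed k] (ht : t.OK) {g ψ : ι → t.Pt → k} (hg : ∀ a, Fn κ t (g a))
    (h0 : ∀ x, ∃ a, g a x ≠ 0) (h : ∀ a, Fn κ t (ψ a))
    (h' : ∀ x a b, ψ a x * g b x = ψ b x * g a x) : ∃ μ : k, ∀ a x, ψ a x = μ * g a x := by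
  choose c hc using h0
  have h1 : ∀ a x, ψ a x = ψ (c x) x / g (c x) x * g a x := fun a x => by
    rw [div_mul_eq_mul_div, h', mul_div_cancel_right₀ _ (hc x)]
  have h2 : Fn 0 t fun x => ψ (c x) x / g (c x) x :=
    Fn.div ht hg (fun x => ⟨_, hc x⟩) fun a => (h a).congr (zero_add _).symm (h1 a)
  exact ⟨_, fun a x => by rw [h1, h2.const x (t.root, none)]⟩

/-- **certificate** for the absence of common zeros -/
theorem cert [IsAlgClosed k] [Fintype ι] (ht : t.OK) {g : ι → t.Pt → k} (hg : ∀ a, Fn κ t (g a))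
    (h0 : ∀ x, ∃ a, g a x ≠ 0) (h : Fn (κ + κ) t φ) :
    ∃ s : ι → t.Pt → k, (∀ a, Fn κ t (s a)) ∧ ∀ x, φ x = ∑ a, s a x * g a x := by
  classical
  obtain ⟨c, hc⟩ := exists_gen (Finset.univ.image fun v : t.Vx => ((v, none) : t.Pt)) g
    fun x _ => h0 x
  have hu := fn_sum (s := Finset.univ) fun a _ => (hg a).smul (c a)
  obtain ⟨σ, -, hσ⟩ := id hu
  obtain ⟨c', hc'⟩ := exists_gen (Finset.univ.biUnion fun v : t.Vx =>
    (σ v).roots.toFinset.image fun z => ((v, some z) : t.Pt)) g fun x _ => h0 x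
  have hw := fn_sum (s := Finset.univ) fun a _ => (hg a).smul (c' a)
  set u : t.Pt → k := fun x => ∑ a, c a * g a x
  set w : t.Pt → k := fun x => ∑ a, c' a * g a x
  have h1 : ∀ x, u x ≠ 0 ∨ w x ≠ 0 := by
    rintro ⟨v, _ | z⟩
    · exact Or.inl (hc _ (Finset.mem_image_of_mem _ (Finset.mem_univ v)))
    · refine or_iff_not_imp_left.2 fun h => hc' _ (Finset.mem_biUnion.2 ⟨v, Finset.mem_univ v,
        Finset.mem_image_of_mem _ (Multiset.mem_toFinset.2 ((mem_roots fun e => ?_).2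
          ((hσ (v, some z)).trans (not_not.1 h))))⟩)
      exact hc _ (Finset.mem_image_of_mem _ (Finset.mem_univ v))
        ((hσ (v, none)).symm.trans (by rw [val, e, hv_zero]))
  let Φ : (FS κ t × FS κ t) →ₗ[k] FS (κ + κ) t :=
    { toFun := fun s => ⟨fun x => s.1.1 x * u x + s.2.1 x * w x,
        (Fn.mul ht s.1.2 hu).add (Fn.mul ht s.2.2 hw)⟩
      map_add' := fun s s' => Subtype.ext (_root_.funext fun x => by simp; ring)
      map_smul' := fun a s => Subtype.ext (_root_.funext fun x => by simp; ring) }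
  have h2 : LinearMap.ker Φ ≤ Submodule.span k {(⟨w, hw⟩, -⟨u, hu⟩)} := fun s hs => by
    have e : ∀ x, s.1.1 x * u x + s.2.1 x * w x = 0 := congrFun (congrArg Subtype.val hs)
    obtain ⟨μ, hμ⟩ := prop_of (g := ![w, -u]) (ψ := ![s.1.1, s.2.1]) ht
      (Fin.forall_fin_two.2 ⟨hw, (FS κ t).neg_mem hu⟩)
      (fun x => (h1 x).elim (fun h => ⟨1, neg_ne_zero.2 h⟩) fun h => ⟨0, h⟩)
      (Fin.forall_fin_two.2 ⟨s.1.2, s.2.2⟩) fun x => by
        simp only [Fin.forall_fin_two, Matrix.cons_val_zero, Matrix.cons_val_one, Pi.neg_apply,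
          true_and, and_true]
        exact ⟨by linear_combination -e x, by linear_combination e x⟩
    exact Submodule.mem_span_singleton.2 ⟨μ, Prod.ext
      (Subtype.ext (_root_.funext fun x => (hμ 0 x).symm))
      (Subtype.ext (_root_.funext fun x => (hμ 1 x).symm))⟩
  have f1 : ∀ κ, Module.Finite k (FS κ t) := fun κ =>
    Module.finite_of_finrank_pos (by rw [finrank_FS ht]; omega)
  have h3 := (Submodule.finrank_mono h2).trans (finrank_span_le_card _)
  have h4 := Φ.finrank_range_add_finrank_ker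
  rw [Module.finrank_prod, finrank_FS ht] at h4
  have h5 : LinearMap.range Φ = ⊤ := Submodule.eq_top_of_finrank_eq (le_antisymm
    (Submodule.finrank_le _) (by
      rw [finrank_FS ht, dot_add']
      simp only [Set.toFinset_singleton, Finset.card_singleton] at h3
      omega))
  obtain ⟨s, hs⟩ := LinearMap.range_eq_top.1 h5 ⟨φ, h⟩
  refine ⟨fun a x => c a * s.1.1 x + c' a * s.2.1 x,
    fun a => (Fn.smul s.1.2 _).add (Fn.smul s.2.2 _), fun x => ?_⟩
  refine (congrFun (congrArg Subtype.val hs) x).symm.trans ?_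
  change s.1.1 x * ∑ a, c a * g a x + s.2.1 x * ∑ a, c' a * g a x = _
  rw [Finset.mul_sum, Finset.mul_sum, ← Finset.sum_add_distrib]
  exact Finset.sum_congr rfl fun a _ => by ring

/-- substitution of sections into a multihomogeneous polynomial -/
theorem fn_subst [Algebra ℂ k] (ht : t.OK) {J' : Type} [Fintype J'] [DecidableEq J']
    {io' : J' → Type} [∀ j, Fintype (io' j)] {e : J' → J → ℕ} {y : t.Pt → Pnt io' k}
    (hy : ∀ j i, Fn (e j) t fun x => y x j i) {q : MvPolynomial (Vr io') ℂ} {m : J' → ℕ}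
    (hq : MH q m) : Fn (∑ j, m j • e j) t fun x => pv (y x) q := by
  simp only [pv, MvPolynomial.aeval_def, MvPolynomial.eval₂_eq']
  refine fn_sum fun s hs => Fn.smul ((fn_prod ht (s := Finset.univ) fun v _ =>
    (hy v.1 v.2).pow ht (s v)).congr ?_ fun _ => rfl) _
  rw [← hq (MvPolynomial.mem_support_iff.1 hs), Finsupp.weight_apply, Finsupp.sum_fintype _ _
    (by simp)]
  simp only [Finset.sum_apply, Finset.sum_smul, Pi.smul_apply, Pi.single_apply, smul_eq_mul,
    mul_ite, mul_one, mul_zero, ite_smul, zero_smul]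
  rw [Finset.sum_comm]
  simp

end Fn

variable {J : Type} [Fintype J] [DecidableEq J] {io : Option J → Type} [∀ j, Fintype (io j)]
  [∀ j, DecidableEq (io j)] {A A' : Type} [Fintype A] [Fintype A']
  {T : Tgt (bs io) A} {T' : Tgt io A'} {d : J → ℕ} (G : Gr T T' d)

theorem q_cross {E : Type} [Field E] [Algebra ℂ E] {y : Pnt (bs io) E} (h0 : NZ y) (h : T.On y)
    (l l' : G.L) (a b : io none) :
    pv y (G.q l a) * pv y (G.q l' b) = pv y (G.q l b) * pv y (G.q l' a) := by
  by_cases h1 : ∃ a, pv y (G.q l a) ≠ 0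
  · obtain ⟨c, hc⟩ := exists_lam G (G.sec E y l h0 h h1) (fun j => by
      cases j
      · exact h1
      · exact h0 _) l'
    rw [show pv y (G.q l' a) = c * pv y (G.q l a) from hc a,
      show pv y (G.q l' b) = c * pv y (G.q l b) from hc b]
    ring
  · push Not at h1
    rw [h1, h1, zero_mul, zero_mul]

/-- **the new coordinates on a tree** with enough factors of degree one -/
theorem exists_g {M : ℕ} (hM : ∀ l j, G.m l j ≤ M) {k : Type} [Field k] [Algebra ℂ k]
    [IsAlgClosed k] {J' : Type} [Fintype J'] [DecidableEq J'] {io' : J' → Type}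
    {t : Tr k J' io'} (ht : t.OK) (e : J → J') {y : t.Pt → Pnt (bs io) k}
    (hy : ∀ j i, Fn (Pi.single (e j) 1) t fun x => y x j i) (h0 : ∀ x, NZ (y x))
    (hO : ∀ x, T.On (y x)) (hc : ∀ x, ∃ l a, pv (y x) (G.q l a) ≠ 0)
    (hτ : ∀ v j, t.vd v (e j) ≠ 0 → ∃ τ, t.vd v τ = 1 ∧ t.deg τ = 1) :
    ∃ κ : J' → ℕ, (∀ j, κ j ≤ M * ∑ j, t.deg (e j)) ∧ ∃ g : io none → t.Pt → k,
      (∀ a, Fn κ t (g a)) ∧ ∀ x l, (∃ b, pv (y x) (G.q l b) ≠ 0) →
        ∃ ν, ν ≠ 0 ∧ ∀ a, g a x = ν * pv (y x) (G.q l a) := by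
  classical
  have hd : ∀ (j : J') (d : J' → ℕ), dot (Pi.single j 1) d = d j := fun j d => by
    simp [dot, Pi.single_apply]
  choose Q h1 h2 using fun l a => fn_subst ht hy (G.hom l a)
  beta_reduce at h2
  have h3 : ∀ l v, dot (∑ j, G.m l j • Pi.single (e j) 1) (t.vd v) ≤ M * ∑ j, t.vd v (e j) := by
    intro l v
    simp only [dot, Finset.sum_apply, Finset.sum_mul, Pi.smul_apply, smul_eq_mul, mul_assoc]
    rw [Finset.sum_comm, Finset.mul_sum]
    refine Finset.sum_le_sum fun j _ => ?_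
    rw [← Finset.mul_sum]
    exact Nat.mul_le_mul (hM l j) (hd (e j) (t.vd v)).le
  have h4 : ∀ v, ∃ n ≤ M * ∑ j, t.vd v (e j), ∃ g : io none → k[X],
      (∀ a, (g a).natDegree ≤ n) ∧ ∀ x l, (∃ b, pv (y (v, x)) (G.q l b) ≠ 0) →
        ∃ ν, ν ≠ 0 ∧ ∀ a, hv n (g a) x = ν * pv (y (v, x)) (G.q l a) := by
    intro v
    obtain ⟨l, a, h⟩ := hc (v, none)
    obtain ⟨n, e1, g, p, e2, e3, e4, e5⟩ := exists_prim (fun a => (h1 l a).natDegree_le v)
      ⟨a, fun e => h ((h2 l a _).symm.trans (by rw [val, e, hv_zero]))⟩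
    refine ⟨n, e1.trans (h3 l v), g, e4, fun x l' ⟨b, hb⟩ => ?_⟩
    have e6 : ∀ a, hv n (g a) x * pv (y (v, x)) (G.q l' b) =
        hv n (g b) x * pv (y (v, x)) (G.q l' a) := fun a => by
      have e7 : g a * Q l' b v = g b * Q l' a v := mul_left_cancel₀ e2 (by
        rw [← mul_assoc, ← mul_assoc, ← e3, ← e3]
        refine Polynomial.funext fun z => ?_
        have e8 := q_cross G (h0 (v, some z)) (hO _) l l' a b
        rw [← h2, ← h2, ← h2, ← h2] at e8
        rw [eval_mul, eval_mul]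
        exact e8)
      have e8 := congrArg (hv (n + dot (∑ j, G.m l' j • Pi.single (e j) 1) (t.vd v)) · x) e7
      simp only [hv_mul (e4 _) ((h1 l' _).natDegree_le v)] at e8
      rw [← h2, ← h2]
      exact e8
    obtain ⟨c, hc⟩ := e5 x
    refine ⟨hv n (g b) x / pv (y (v, x)) (G.q l' b), div_ne_zero (fun e => ?_) hb, fun a => ?_⟩
    · exact mul_ne_zero hc hb (by rw [e6, e, zero_mul])
    · rw [div_mul_eq_mul_div, ← e6, mul_div_cancel_right₀ _ hb]
  choose n h5 g h6 h7 using h4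
  have h8 : ∀ v, ∃ u : J' → ℕ, (∀ j, u j ≤ n v) ∧
      ∀ w, dot u (t.vd w) = if w = v then n v else 0 := by
    intro v
    by_cases h : ∀ j, t.vd v (e j) = 0
    · have : n v = 0 := by simpa [h] using h5 v
      exact ⟨0, fun _ => Nat.zero_le _, fun w => by simp [dot, this]⟩
    · push Not at h
      obtain ⟨j, hj⟩ := h
      obtain ⟨τ, e1, e2⟩ := hτ v j hj
      refine ⟨Pi.single τ (n v), fun j => by rw [Pi.single_apply]; split_ifs <;> omega,
        fun w => ?_⟩
      have e3 : dot (Pi.single τ (n v)) (t.vd w) = n v * t.vd w τ := by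
        simp [dot, Pi.single_apply]
      rw [e3]
      split_ifs with h
      · rw [h, e1, mul_one]
      · have e4 := Finset.add_le_sum (f := fun a => t.vd a τ) (fun _ _ => Nat.zero_le _)
          (Finset.mem_univ w) (Finset.mem_univ v) h
        rw [sum_vd, e2] at e4
        rw [show t.vd w τ = 0 by omega, mul_zero]
  choose u h9 h10 using h8
  have h11 : ∀ w, dot (∑ v, u v) (t.vd w) = n w := fun w => by
    simp only [dot, Finset.sum_apply, Finset.sum_mul]
    rw [Finset.sum_comm]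
    exact (Finset.sum_congr rfl fun v _ => h10 v w).trans (by simp)
  obtain ⟨c, h12, h13⟩ := exists_rescale (κ := ∑ v, u v) ht (fun a v => g v a)
    (fun a v => (h6 v a).trans (h11 v).ge) fun x x' hx => by
      obtain ⟨l, hl⟩ := hc x
      have e1 : y x = y x' := _root_.funext fun j => _root_.funext fun i => (hy j i).same hx
      obtain ⟨ν, e2, e3⟩ := h7 x.1 x.2 l hl
      obtain ⟨ν', e4, e5⟩ := h7 x'.1 x'.2 l (e1 ▸ hl)
      refine ⟨ν' / ν, div_ne_zero e4 e2, fun a => ?_⟩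
      rw [val, val, h11, h11, e3, e5, ← e1, ← mul_assoc, div_mul_cancel₀ _ e2]
  refine ⟨∑ v, u v, fun j => ?_, fun a => val _ t fun v => c v • g v a,
    fun a => ⟨_, h13 a, fun _ => rfl⟩, fun x l hl => ?_⟩
  · rw [Finset.sum_apply]
    refine (Finset.sum_le_sum fun v _ => (h9 v j).trans (h5 v)).trans_eq ?_
    rw [← Finset.mul_sum, Finset.sum_comm]
    simp only [sum_vd]
  · obtain ⟨ν, e1, e2⟩ := h7 x.1 x.2 l hl
    exact ⟨c x.1 * ν, mul_ne_zero (h12 _) e1, fun a => by
      refine (Bub96.hv_smul _ _ _ _).trans ?_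
      rw [h11, e2, mul_assoc]⟩

end Crest.Agent.X262.Emb71
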