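import Crest.Agent.X262.Emb11.Defs
import Crest.Agent.X262.Bub96.Lat

/-!
# Row 262, road B, EMB (helper71), part 5: local form of `tl_red`, discs

* `td_of_red`, `tl_loc` : the reduction of a datum which is normed over one place is tree-like
  (proof of `Bub96.tl_red`, localised);
* `two_roots`, `vd_pair` : a vertex of positive degree is the vertex of a pair of roots.
-/

set_option autoImplicit false
set_option linter.unusedSectionVars false

noncomputable section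

namespace Crest.Agent.X262.Emb71

open Polynomial IsLocalRing Crest.Agent.X277 Crest.Agent.X277.BD Crest.Agent.X262.Vb
open Crest.Agent.X262.Tree87 Crest.Agent.X262.Bub96 Crest.Agent.X262.Bub96.Tr
open Crest.Agent.X262.Emb (NrmAt)

variable {J : Type} [Fintype J] [DecidableEq J] {io : J → Type} [∀ j, Fintype (io j)]
  [∀ j, DecidableEq (io j)] {d : J → ℕ} {I K E L : Type} [Field K] [Algebra ℂ K] [Field E]
  [Algebra ℂ E] [Field L] [Algebra ℂ L]

theorem inj_loc [Infinite L] {ξ : Dat io d I K} {κ : J → ℕ} {α : K →ₐ[ℂ] L} {W : RZ ℂ L} {π : L}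
    (hπ : π ≠ 0) (hπ1 : W.v π < 1) (h : NrmAt (ξ.map α) W κ) {σ : K[X]}
    (hσ : σ.natDegree ≤ dot κ d) (h0 : ∀ q, hv (dot κ d) σ (ξ.x q) = 0) : σ = 0 := by
  refine (Polynomial.map_eq_zero (α : K →+* L)).1 (Polynomial.funext fun t => ?_)
  by_contra ht
  rw [eval_zero] at ht
  set a := lw κ ((ξ.map α).pt (some t))
  have := h (C (π⁻¹ * a.gen W / (σ.map (α : K →+* L)).eval t) * σ.map (α : K →+* L))
    ((natDegree_C_mul_le _ _).trans (natDegree_map_le.trans hσ)) (fun q => by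
      rw [hv_C_mul, show (ξ.map α).x q = (ξ.x q).map (α : K →+* L) from rfl, hv_map, h0, map_zero,
        mul_zero, map_zero]
      exact zero_le) (some t)
  rw [hv_C_mul, hv_some, div_mul_cancel₀ _ ht, map_mul, v_gen, map_inv₀,
    mul_le_iff_le_one_left (a.val_pos W), inv_le_one₀ (RZ.pos hπ)] at this
  exact absurd hπ1 (not_lt.2 this)

/-- the tree of a reduction over an algebraically closed field describes the configuration -/
theorem td_of_red [Fintype I] [IsAlgClosed L] {ξ : Dat io d I K} {N : ℕ} {p : Pl ℂ K ℂ E}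
    {α : K →ₐ[ℂ] L} {W : RZ ℂ L} [Algebra ℂ (ResidueField W.1)] (β : E →ₐ[ℂ] ResidueField W.1)
    (hW : cm (α : K →+* L) (alg_ov α) W = p.V) (hβ : ∀ x ∈ p.V.1, (rd W).p (α x) = β (p.r x))
    {π : L} (hπ : π ≠ 0) (hπ1 : W.v π < 1)
    (h : ∀ κ : J → ℕ, (∀ j, κ j ≤ N) → NrmAt (ξ.map α) W κ) (A : Red (rd W) d (ξ.map α).f) :
    ∃ D : TD d N (ξ.cfg.red p) (ResidueField W.1), D.t = A.T := by
  have := (rd W).isAlgClosed
  set n := ξ.cfg.nrm p.V with hn
  have hn0 : ∀ q j, n q j ≠ 0 := fun q j => inv_ne_zero (gen_ne _ _)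
  have hmem : ∀ x, α x ∈ W.1 ↔ x ∈ p.V.1 := fun x => by rw [← hW]; rfl
  let u : I → J → L := fun q j => A.nrm ((ξ.map α).x q) j / α (n q j)
  have hu : ∀ q j, W.v (u q j) = 1 := fun q j => by
    have h1 := v_nrm A ((ξ.map α).x q) j
    rw [show (ξ.map α).x q = (ξ.x q).map α from rfl, pt_map, ln, ← pb_mxf, pb, val_mp_gen, hW,
      ← map_mul] at h1
    rw [← h1]
    simp only [u, hn, Cfg.nrm, map_inv₀, div_inv_eq_mul]
    rfl
  have huO : ∀ q j, u q j ∈ (rd W).O := fun q j => RZ.le_one_iff.1 (hu q j).le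
  have hun : ∀ q j, u q j * α (n q j) = A.nrm ((ξ.map α).x q) j := fun q j =>
    div_mul_cancel₀ _ ((map_ne_zero α).2 (hn0 q j))
  let c : I → J → ResidueField W.1 := fun q j => (rd W).p (u q j)
  have hc : ∀ q j, c q j ≠ 0 := fun q j => (rd W).p_ne_zero (hu q j)
  have hV : ∀ κ : J → ℕ, (∀ j, κ j ≤ N) →
      (((ξ.cfg.red p).map β).gau c).V κ ≤
        (A.T.Sec κ).map (vals A.T (fun q => A.sp ((ξ.map α).x q)) κ) := by
    intro κ hκ
    refine Submodule.map_le_iff_le_comap.2 (mapS_redS_le β ?_)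
    rintro _ ⟨_, ⟨σ, hσ, rfl⟩, rfl⟩ hi
    have hσ' : (σ.map (α : K →+* L)).natDegree ≤ dot κ d :=
      natDegree_map_le.trans (natDegree_le_of_degree_le (mem_degreeLE.1 hσ))
    have hi' : ∀ q, (∏ j, n q j ^ κ j) * hv (dot κ d) σ (ξ.x q) ∈ p.V.1 := hi
    have hU : ∀ q, (∏ j, u q j ^ κ j) ∈ (rd W).O := fun q =>
      prod_mem fun j _ => pow_mem (huO q j) _
    have e : ∀ q, A.nv κ (σ.map (α : K →+* L)) ((ξ.map α).x q) =
        (∏ j, u q j ^ κ j) * α ((∏ j, n q j ^ κ j) * hv (dot κ d) σ (ξ.x q)) := fun q => by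
      rw [Red.nv, map_mul, map_prod, ← mul_assoc, ← Finset.prod_mul_distrib]
      congr 1
      · exact Finset.prod_congr rfl fun j _ => by rw [map_pow, ← mul_pow, hun]
      · exact hv_map (α : K →+* L) _ _ _
    obtain ⟨s, hs, hs'⟩ := A.exists_sec hσ' fun t => (nv_mem_iff A κ _ t).2
      (h κ hκ _ hσ' (fun q => (nv_mem_iff A κ _ _).1
        (e q ▸ mul_mem (hU q) ((hmem _).2 (hi' q)))) t)
    refine ⟨s, hs, _root_.funext fun q => ?_⟩
    refine (hs' _).symm.trans ?_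
    rw [e, (rd W).p_mul (hU q) ((hmem _).2 (hi' q)), hβ _ (hi' q),
      (rd W).p_prod _ _ fun j _ => pow_mem (huO q j) _]
    simp only [(rd W).p_pow (huO q _)]
    rfl
  have hf : ∀ κ : J → ℕ, (∀ j, κ j ≤ N) → Module.finrank K (ξ.cfg.V κ) = dot κ d + 1 := by
    intro κ hκ
    refine (finrank_map_of_inj _ _ fun σ hσ h0 => inj_loc hπ hπ1 (h κ hκ)
      (natDegree_le_of_degree_le (mem_degreeLE.1 hσ)) (congrFun h0)).trans ?_
    rw [← degreeLT_succ_eq_degreeLE, (degreeLTEquiv K _).finrank_eq, Module.finrank_fin_fun]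
  have hfr : ∀ κ : J → ℕ, (∀ j, κ j ≤ N) →
      Module.finrank (ResidueField W.1) ((((ξ.cfg.red p).map β).gau c).V κ) =
        Module.finrank (ResidueField W.1) (A.T.Sec κ) := by
    intro κ hκ
    rw [finrank_sec κ A.ok, A.deg, ← hf κ hκ]
    exact (finrank_sclS (fun q => Finset.prod_ne_zero_iff.2 fun j _ => pow_ne_zero _ (hc q j))
      _).trans ((finrank_mapS β _).trans ((finrank_redS p _).trans (finrank_sclS
        (fun q => Finset.prod_ne_zero_iff.2 fun j _ => pow_ne_zero _ (hn0 q j)) _)))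
  have hE : ∀ κ : J → ℕ, (∀ j, κ j ≤ N) → (((ξ.cfg.red p).map β).gau c).V κ =
      (A.T.Sec κ).map (vals A.T (fun q => A.sp ((ξ.map α).x q)) κ) := fun κ hκ => by
    have := finite_sec κ A.T
    exact Submodule.eq_of_le_of_finrank_le (hV κ hκ)
      ((Submodule.finrank_map_le _ _).trans (hfr κ hκ).ge)
  refine ⟨{
    α := β
    t := A.T
    sp := fun q => A.sp ((ξ.map α).x q)
    c := c
    ok := A.ok
    deg := A.deg
    c_ne := hc
    y_eq := fun q => _root_.funext fun j => _root_.funext fun i => ?_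
    V_eq := hE
    nrm := fun κ hκ s hs h0 => ?_ }, rfl⟩
  · have h1 : n q j * ξ.pt (ξ.x q) j i ∈ p.V.1 := by
      rw [hn, Cfg.nrm, inv_mul_eq_div]
      exact (RZ.le_iff (gen_ne _ _)).1 (v_gen _ p.V ▸ mem_Sec_mxf _ i p.V)
    rw [← A.ev_sp, ← hun, mul_assoc]
    refine ((congrArg (c q j * ·) (hβ _ h1)).symm.trans
      ((rd W).p_mul (huO q j) ((hmem _).2 h1)).symm).trans ?_
    rw [map_mul]
    exact congrArg (fun z => (rd W).p (u q j * (α (n q j) * z)))
      (hv_map (α : K →+* L) _ _ _).symm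
  · have := finite_sec κ A.T
    exact inj_of_finrank _ _ (by rw [← hE κ hκ, hfr κ hκ]) s hs
      (_root_.funext fun q => h0 _ ⟨q, rfl⟩)

section Disc

variable {k : Type} [Field k] {R : Rd L k} {F : (j : J) → io j → L[X]} (A : Red R d F)

theorem two_roots [IsAlgClosed L] [IsAlgClosed k] [CharZero k] {a : A.T.Vx} {j : J}
    (hj : A.T.vd a j ≠ 0) {x ρ e : L} {h : k[X]} (hh : h ≠ 0)
    (hP : ∀ i, PInt R.O (C e * (F j i).comp (C x + C ρ * X)) ∧
      R.pP (C e * (F j i).comp (C x + C ρ * X)) = h * A.T.vg a j i) (z₀ : k) :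
    ∃ c < 2 * Fintype.card (io j) + 1, lf F j c ≠ 0 ∧ ∃ u ∈ R.O, R.p u ≠ z₀ ∧
      (lf F j c).eval (x + ρ * u) = 0 := by
  classical
  let bad : Option k → Finset ℕ := fun b => (Finset.range (2 * Fintype.card (io j) + 1)).filter
    fun c : ℕ => ∑ i, (c : k) ^ ex io j i * A.T.ev (a, b) j i = 0
  have hlt : (bad none ∪ bad (some z₀)).card <
      (Finset.range (2 * Fintype.card (io j) + 1)).card := by
    have h1 : (bad none).card ≤ _ := card_bad (A.ok.ev_ne (a, none) j) _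
    have h2 : (bad (some z₀)).card ≤ _ := card_bad (A.ok.ev_ne (a, some z₀) j) _
    have h3 := Finset.card_union_le (bad none) (bad (some z₀))
    rw [Finset.card_range]
    omega
  obtain ⟨c, hc, hc'⟩ := Finset.exists_mem_notMem_of_card_lt_card hlt
  set G : k[X] := lf (A.T.vg a) j c with hG
  have hGv : ∀ b, c ∉ bad b → hv (A.T.vd a j) G b ≠ 0 := fun b hb h0 =>
    hb (Finset.mem_filter.2 ⟨hc, by
      rw [← h0, hG, lf, hv_sum]
      exact Finset.sum_congr rfl fun i _ => (hv_C_mul _ _ _ _).symm⟩)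
  have hG1 : G.coeff (A.T.vd a j) ≠ 0 := hGv none fun h => hc' (Finset.mem_union_left _ h)
  have hG0 : G ≠ 0 := fun h0 => hG1 (by rw [h0, coeff_zero])
  obtain ⟨z, hz⟩ := IsAlgClosed.exists_root G (natDegree_pos_iff_degree_pos.1
    (lt_of_lt_of_le (Nat.pos_of_ne_zero hj) (le_natDegree_of_ne_zero hG1))).ne'
  have hQ : C e * (lf F j c).comp (C x + C ρ * X) =
      ∑ i, C ((c : L) ^ ex io j i) * (C e * (F j i).comp (C x + C ρ * X)) := by
    rw [lf, Polynomial.sum_comp, Finset.mul_sum]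
    exact Finset.sum_congr rfl fun i _ => by rw [mul_comp, C_comp, mul_left_comm]
  have hc1 : ∀ i, (c : L) ^ ex io j i ∈ R.O := fun i => pow_mem (R.p_natCast c).1 _
  obtain ⟨hI, eI⟩ := Rd.pInt_sum (R := R) Finset.univ
    (fun i => C ((c : L) ^ ex io j i) * (C e * (F j i).comp (C x + C ρ * X)))
    fun i _ => ((Rd.pInt_C (hc1 i)).1.mul (hP i).1).1
  rw [← hQ] at hI eI
  have eI' : R.pP (C e * (lf F j c).comp (C x + C ρ * X)) = h * G := by
    rw [eI, hG, lf, Finset.mul_sum]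
    refine Finset.sum_congr rfl fun i _ => ?_
    rw [((Rd.pInt_C (hc1 i)).1.mul (hP i).1).2, (Rd.pInt_C (hc1 i)).2, (hP i).2,
      R.p_pow (R.p_natCast c).1, (R.p_natCast c).2, mul_left_comm]
  have hne : R.pP (C e * (lf F j c).comp (C x + C ρ * X)) ≠ 0 := eI' ▸ mul_ne_zero hh hG0
  have hz0 : R.pP (0 : L[X]) = 0 := by ext l; rw [R.coeff_pP, coeff_zero, R.p_zero, coeff_zero]
  obtain ⟨u, hu, huz, hu0⟩ := Rd.exists_root hI hne (z := z)
    (by rw [eI', IsRoot, eval_mul, show G.eval z = 0 from hz, mul_zero])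
  rw [eval_aff] at hu0
  exact ⟨c, Finset.mem_range.1 hc, fun h0 => hne (by rw [h0, zero_comp, mul_zero, hz0]), u, hu,
    fun e => hGv (some z₀) (fun h => hc' (Finset.mem_union_right _ h)) (e ▸ huz ▸ hz),
    (mul_eq_zero.1 hu0).resolve_left fun h0 => hne (by rw [h0, C_0, zero_mul, hz0])⟩

theorem vd_pair {a : A.T.Vx} {j : J} {x ρ e : L} {h : k[X]} (hh : h ≠ 0)
    (hP : ∀ i, PInt R.O (C e * (F j i).comp (C x + C ρ * X)) ∧
      R.pP (C e * (F j i).comp (C x + C ρ * X)) = h * A.T.vg a j i) {u : io j → L}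
    (hu : ∀ i, u i ∈ R.O) (hF : ∀ i, F j i = X - C (x + ρ * u i)) {i₁ i₂ : io j}
    (hi : R.p (u i₁) ≠ R.p (u i₂)) : A.T.vd a j ≠ 0 := by
  intro h0
  have h1 : ∀ i, C e * (F j i).comp (C x + C ρ * X) = C (-(e * ρ * u i)) + C (e * ρ) * X := by
    intro i
    rw [hF, sub_comp, X_comp, C_comp]
    simp only [map_add, map_mul, map_neg]
    ring
  have h2 : e * ρ ∈ R.O := by simpa [h1, coeff_C] using (hP i₁).1 1
  have h3 : ∀ i, h * C ((A.T.vg a j i).coeff 0) =
      C (-(R.p (e * ρ) * R.p (u i))) + C (R.p (e * ρ)) * X := fun i => by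
    rw [← eq_C_of_natDegree_le_zero (h0 ▸ A.ok.natDegree_le a j i), ← (hP i).2, h1,
      (Rd.pInt_aff (neg_mem (mul_mem h2 (hu i))) h2).2, R.p_neg (mul_mem h2 (hu i)),
      R.p_mul h2 (hu i)]
  have h4 := fun i => congrArg (coeff · 0) (h3 i)
  have h5 := fun i => congrArg (coeff · 1) (h3 i)
  simp only [coeff_mul_C, coeff_add, coeff_C_zero, coeff_C_succ, coeff_C_mul, coeff_X_zero,
    coeff_X_one, mul_zero, add_zero, mul_one, zero_add] at h4 h5
  by_cases h6 : R.p (e * ρ) = 0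
  · obtain ⟨i, h7⟩ := A.ok.ev_ne (a, none) j
    have h8 := h3 i
    simp only [h6, zero_mul, neg_zero, map_zero, add_zero, mul_eq_zero, hh, false_or,
      C_eq_zero] at h8
    exact h7 (by rw [Tr.ev, h0]; exact h8)
  · have h7 : h.coeff 1 ≠ 0 := left_ne_zero_of_mul (h5 i₁ ▸ h6)
    have h8 := mul_left_cancel₀ h7 ((h5 i₁).trans (h5 i₂).symm)
    refine hi (mul_left_cancel₀ h6 (neg_injective ?_))
    rw [← h4, ← h4, h8]

end Disc

/-- a tree for the reduced configuration, with a property of all reductions -/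
theorem exists_td [Fintype I] {ξ : Dat io d I K} {N : ℕ} (p : Pl ℂ K ℂ E)
    (h : ∀ (L : Type) [Field L] [Algebra ℂ L] (α : K →ₐ[ℂ] L) (W : RZ ℂ L),
      cm (α : K →+* L) (alg_ov α) W = p.V → ∀ κ : J → ℕ, (∀ j, κ j ≤ N) → NrmAt (ξ.map α) W κ) :
    ∃ (L : Type) (_ : Field L) (_ : Algebra ℂ L) (_ : IsAlgClosed L) (α : K →ₐ[ℂ] L) (W : RZ ℂ L)
      (_ : Algebra ℂ (ResidueField W.1)) (A : Red (rd W) d (ξ.map α).f)
      (D : TD d N (ξ.cfg.red p) (ResidueField W.1)), D.t = A.T := by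
  obtain ⟨L, _, _, _, α, W, β, hW, hβ, π, hπ, hπ1⟩ := exists_ext p
  let _ : Algebra ℂ (ResidueField W.1) := (β.comp (algebraMap ℂ E)).toAlgebra
  have := (rd W).isAlgClosed
  obtain ⟨A⟩ := exists_red (rd W) (cop_of_cp (ξ.map α).cp)
  obtain ⟨D, hD⟩ := td_of_red { β with commutes' := fun _ => rfl } hW hβ hπ hπ1 (h L α W hW) A
  exact ⟨L, _, _, inferInstance, α, W, _, A, D, hD⟩

theorem tl_loc [Fintype I] {ξ : Dat io d I K} {N : ℕ} (p : Pl ℂ K ℂ E)
    (h : ∀ (L : Type) [Field L] [Algebra ℂ L] (α : K →ₐ[ℂ] L) (W : RZ ℂ L),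
      cm (α : K →+* L) (alg_ov α) W = p.V → ∀ κ : J → ℕ, (∀ j, κ j ≤ N) → NrmAt (ξ.map α) W κ) :
    TL d N (ξ.cfg.red p) := by
  obtain ⟨L, _, _, _, α, W, _, -, D, -⟩ := exists_td p h
  exact ⟨_, inferInstance, inferInstance, (rd W).isAlgClosed, ⟨D⟩⟩

end Crest.Agent.X262.Emb71
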