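import Crest.Agent.X262.Emb71.Lf1
import Crest.Agent.X262.Emb71.Lf2
import Crest.Agent.X262.Emb96.Tre
import Crest.Agent.X262.Lft78.Defs
import Crest.Agent.X262.Vb.Bas0
import Crest.Agent.X262.Vb37.Mob

/-!
# Row 262, road B, EMB (helper71), part 6: the local lifting statement

* `exists_lift` : every section on the tree of a reduction is the reduction of a form;
* `locStmt`     : `Lft78.LocStmt`.
-/

set_option autoImplicit false
set_option linter.unusedSectionVars false

noncomputable section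

namespace Crest.Agent.X262.Emb71

open Polynomial IsLocalRing Crest.Agent.X277 Crest.Agent.X277.BD Crest.Agent.X262.Vb
open Crest.Agent.X277.BD.Cyc (Rf plV lnr_plV)
open Crest.Agent.X262.Bub96 Crest.Agent.X262.Bub96.Tr Crest.Agent.X262.Emb
open Crest.Agent.X262.Node22 (scl chr pv_scl chr_ne)
open Crest.Agent.X262.Lft78 (RedOn LocStmt)

theorem exists_pts {k X : Type} [Field k] : ∀ (n : ℕ) (U : Submodule k (X → k))
    [Module.Finite k U], Module.finrank k U ≤ n →
    ∃ Y : Finset X, Y.card ≤ n ∧ ∀ ψ ∈ U, (∀ y ∈ Y, ψ y = 0) → ψ = 0 := by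
  classical
  intro n
  induction n with
  | zero =>
    intro U _ h
    exact ⟨∅, le_rfl, fun ψ hψ _ => by
      rwa [Submodule.finrank_eq_zero.1 (Nat.le_zero.1 h), Submodule.mem_bot] at hψ⟩
  | succ n ih =>
    intro U _ h
    by_cases h0 : ∀ ψ ∈ U, ψ = 0
    · exact ⟨∅, Nat.zero_le _, fun ψ hψ _ => h0 ψ hψ⟩
    push Not at h0
    obtain ⟨ψ₀, h1, h2⟩ := h0
    obtain ⟨x, hx⟩ := Function.ne_iff.1 h2
    have hlt : U ⊓ LinearMap.ker (LinearMap.proj x : (X → k) →ₗ[k] k) < U :=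
      lt_of_le_of_ne inf_le_left fun e => hx (e.ge h1).2
    have := Submodule.finiteDimensional_of_le hlt.le
    obtain ⟨Y, h3, h4⟩ := ih _ (Nat.lt_succ_iff.1 ((Submodule.finrank_lt_finrank_of_lt hlt).trans_le h))
    exact ⟨insert x Y, (Finset.card_insert_le _ _).trans (Nat.succ_le_succ h3), fun ψ hψ h5 =>
      h4 ψ ⟨hψ, h5 x (Finset.mem_insert_self _ _)⟩ fun y hy => h5 y (Finset.mem_insert_of_mem hy)⟩

theorem exists_van {K : Type} [Field K] (Y : Finset (Option K)) : ∀ D : ℕ, Y.card ≤ D →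
    ∃ σ : K[X], σ ≠ 0 ∧ σ.natDegree ≤ D ∧ ∀ y ∈ Y, hv D σ y = 0 := by
  classical
  induction Y using Finset.induction_on with
  | empty => exact fun D _ => ⟨1, one_ne_zero, by simp, by simp⟩
  | insert a Y ha ih =>
    intro D hD
    rw [Finset.card_insert_of_notMem ha] at hD
    obtain ⟨D, rfl⟩ : ∃ D', D = D' + 1 := ⟨D - 1, by omega⟩
    obtain ⟨σ, h1, h2, h3⟩ := ih D (by omega)
    refine ⟨σ * Emb96.lin a, mul_ne_zero h1 (Emb96.lin_ne a),
      natDegree_mul_le.trans (add_le_add h2 (Emb96.natDegree_lin a)), fun y hy => ?_⟩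
    rw [hv_mul h2 (Emb96.natDegree_lin a)]
    rcases Finset.mem_insert.1 hy with rfl | hy
    · rw [(Emb96.hv_lin _ _).2 rfl, mul_zero]
    · rw [h3 y hy, zero_mul]

section Lift

variable {J : Type} [Fintype J] {io : J → Type} [∀ j, Fintype (io j)] {d κ : J → ℕ} {K k : Type}
  [Field K] [Field k] [Infinite k] {R : Rd K k} {F : (j : J) → io j → K[X]} (A : Red R d F)

theorem nv_C_mul (c : K) (σ : K[X]) (y : Option K) : A.nv κ (C c * σ) y = c * A.nv κ σ y := by
  rw [Red.nv, Red.nv, hv_C_mul, mul_left_comm]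

/-- every section on the tree is the reduction of a form -/
theorem exists_lift {φ : A.T.Pt → k} (h : Fn κ A.T φ) : ∃ σ : K[X], σ.natDegree ≤ dot κ d ∧
    ∀ y, A.nv κ σ y ∈ R.O ∧ R.p (A.nv κ σ y) = φ (A.sp y) := by
  let U : Submodule k (Option K → k) :=
    { carrier := {ψ | ∃ σ : K[X], σ.natDegree ≤ dot κ d ∧
        ∀ y, A.nv κ σ y ∈ R.O ∧ R.p (A.nv κ σ y) = ψ y}
      add_mem' := by
        rintro a b ⟨σ, h1, h2⟩ ⟨τ, h3, h4⟩
        refine ⟨σ + τ, (natDegree_add_le _ _).trans (max_le h1 h3), fun y => ?_⟩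
        rw [Red.nv, hv_add, mul_add]
        exact ⟨add_mem (h2 y).1 (h4 y).1, (R.p_add (h2 y).1 (h4 y).1).trans
          (congrArg₂ (· + ·) (h2 y).2 (h4 y).2)⟩
      zero_mem' := ⟨0, by simp, fun y => by
        rw [Red.nv, hv_zero, mul_zero]
        exact ⟨zero_mem _, R.p_zero⟩⟩
      smul_mem' := by
        rintro c a ⟨σ, h1, h2⟩
        obtain ⟨e, he, rfl⟩ := R.exists_lift c
        refine ⟨C e * σ, (natDegree_C_mul_le _ _).trans h1, fun y => ?_⟩
        rw [nv_C_mul]
        exact ⟨mul_mem he (h2 y).1, (R.p_mul he (h2 y).1).trans (congrArg _ (h2 y).2)⟩ }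
  let V : Submodule k (Option K → k) := (FS κ A.T).map (LinearMap.funLeft k k A.sp)
  have hf := finrank_FS (κ := κ) A.ok
  have : Module.Finite k (FS κ A.T) := Module.finite_of_finrank_pos (by omega)
  have hUV : U ≤ V := by
    rintro ψ ⟨σ, h1, h2⟩
    obtain ⟨s, hs, hs'⟩ := A.exists_sec h1 fun y => (h2 y).1
    exact ⟨val κ A.T s, ⟨s, hs, fun _ => rfl⟩, funext fun y => (hs' y).symm.trans (h2 y).2⟩
  have := Submodule.finiteDimensional_of_le hUV
  have hE : U = V := by
    refine Submodule.eq_of_le_of_finrank_le hUV ((Submodule.finrank_map_le _ _).trans ?_)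
    rw [hf, A.deg]
    by_contra hlt
    obtain ⟨Y, h1, h2⟩ := exists_pts (dot κ d) U (by omega)
    obtain ⟨σ, h3, h4, h5⟩ := exists_van Y _ h1
    obtain ⟨c, -, s, hs, hs0, hv⟩ := A.sec κ σ h4 h3
    have h6 : ∀ y, A.nv κ (C c * σ) y ∈ R.O ∧ R.p (A.nv κ (C c * σ) y) = val κ A.T s (A.sp y) :=
      fun y => by rw [nv_C_mul, Red.nv, ← mul_assoc]; exact hv y
    have h7 := h2 (fun y => val κ A.T s (A.sp y)) ⟨_, (natDegree_C_mul_le _ _).trans h4, h6⟩
      fun y hy => by rw [← (hv y).2, h5 y hy, mul_zero, R.p_zero]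
    refine hs0 (eq_zero_of_val (kk := κ) fun x => ?_)
    obtain ⟨y, hy⟩ := A.surj x
    exact (hy.2 κ s hs).trans (congrFun h7 y)
  exact hE.ge ⟨φ, h, rfl⟩

end Lift

theorem red_iff {J : Type} [Fintype J] [DecidableEq J] {io : J → Type} [∀ j, Fintype (io j)]
    [∀ j, DecidableEq (io j)] {A L : Type} [Fintype A] [Field L] [Algebra ℂ L] (T : Tgt io A)
    {W : RZ ℂ L} {y : Pnt io L} {c : J → L} (hi : ∀ j i, c j * y j i ∈ W.1)
    (h0 : NZ (redP (plV W) (scl c y))) : RedOn T W y ↔ T.On (redP (plV W) (scl c y)) := by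
  have hp : Prim W (scl c y) := fun j => ⟨hi j, (h0 j).imp fun i h =>
    (Pl.r_ne_zero_iff (p := plV W) (x := scl c y j i)).1 h⟩
  have hc : ∀ j, c j ≠ 0 := fun j => by
    obtain ⟨i, h⟩ := hp.nz j
    exact left_ne_zero_of_mul h
  have hy : NZ y := fun j => (hp.nz j).imp fun i h => right_ne_zero_of_mul h
  refine forall_congr' fun a => ?_
  have h1 := hp.val_lw (T.k a)
  rw [lw_scl hy hc, BD.val_add, val_pr (chr_ne hc _)] at h1
  rw [← r_pv (y := scl c y) (lnr_plV W) hi, Pl.r_eq_zero (pv_mem (y := scl c y) hi _), pv_scl (T.hom a), map_mul]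
  change _ ↔ W.v _ * W.v _ < 1
  rw [← h1, mul_comm, mul_lt_mul_iff_left₀ (RZ.pos (chr_ne hc _))]

section Aux

/-- auxiliary factors -/
def ioP {J : Type} (io : J → Type) (P : Type) : J ⊕ P → Type
  | Sum.inl j => io j
  | Sum.inr _ => Bool

variable {J : Type} [Fintype J] [DecidableEq J] {io : J → Type} [∀ j, Fintype (io j)]
  [∀ j, DecidableEq (io j)] {P : Type} [Fintype P] [DecidableEq P] {d : J → ℕ} {I L : Type}
  [Field L] [Algebra ℂ L]

instance : ∀ x, Fintype (ioP io P x)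
  | Sum.inl j => inferInstanceAs (Fintype (io j))
  | Sum.inr _ => inferInstanceAs (Fintype Bool)

instance : ∀ x, DecidableEq (ioP io P x)
  | Sum.inl j => inferInstanceAs (DecidableEq (io j))
  | Sum.inr _ => inferInstanceAs (DecidableEq Bool)

/-- the forms with one more factor for every pair of points -/
def fP (f : (j : J) → io j → L[X]) (r : P → Bool → L) : (x : J ⊕ P) → ioP io P x → L[X]
  | Sum.inl j => f j
  | Sum.inr p => fun b : Bool => X - C (r p b)

/-- the datum with the auxiliary factors -/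
def datP [IsAlgClosed L] (ξ : Dat io d I L) (r : P → Bool → L) (hr : ∀ p, r p true ≠ r p false) :
    Dat (ioP io P) (Sum.elim d fun _ => 1) I L where
  f := fP ξ.f r
  x := ξ.x
  cp := by
    refine Vb37.cp_of_closed (RingHom.id L) ?_ ?_
    · rintro (j | p) i
      · exact ξ.cp.1 j i
      · exact (natDegree_X_sub_C _).le
    · rintro (j | p) t
      · exact (nz_pt ξ t j).imp fun i h => by rwa [Polynomial.map_id]
      · by_cases h : t = some (r p true)
        · exact ⟨false, by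
            rw [Polynomial.map_id]
            exact fun h0 => hr p (Option.some.inj
              (h.symm.trans ((Emb96.hv_lin (some (r p false)) t).1 h0)))⟩
        · exact ⟨true, by
            rw [Polynomial.map_id]
            exact fun h0 => h ((Emb96.hv_lin (some (r p true)) t).1 h0)⟩

end Aux

theorem locStmt : LocStmt := by
  intro J _ _ io _ _ A A' _ _ T T' d G L I _ _ _ ξ W hW
  classical
  let B : ℕ := 2 * (∑ j, Fintype.card (bs io j)) + 1
  let s : Finset L := (Finset.univ ×ˢ Finset.range B).biUnion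
    fun x : J × ℕ => (lf ξ.f x.1 x.2).roots.toFinset
  let P : Type := s.offDiag
  let r : P → Bool → L := fun p b => cond b p.1.1 p.1.2
  let η := datP ξ r fun p => (Finset.mem_offDiag.1 p.2).2.2
  have := (rd W).isAlgClosed
  have := charZero_rd W
  let _ : Algebra ℂ (ResidueField W.1) := inferInstanceAs (Algebra ℂ (Rf W))
  obtain ⟨R⟩ := exists_red (rd W) (cop_of_cp η.cp)
  let y : R.T.Pt → Pnt (bs io) (ResidueField W.1) := fun x j => R.T.ev x (Sum.inl j)
  have h0 : ∀ x, NZ (y x) := fun x j => R.ok.ev_ne x (Sum.inl j)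
  have hy : ∀ t, y (R.sp t) = redP (plV W) (scl (fun j => R.nrm t (Sum.inl j)) (ξ.pt t)) :=
    fun t => funext fun j => funext fun i => (R.ev_sp t (Sum.inl j) i).symm
  have hO : ∀ x, T.On (y x) := fun x => by
    obtain ⟨t, ht⟩ := R.surj x
    have e : y x = y (R.sp t) := _root_.funext fun j => _root_.funext fun i => ht.1 (Sum.inl j) i
    rw [e, hy]
    exact (red_iff T (fun j i => R.nrm_mem t (Sum.inl j) i) (hy t ▸ h0 _)).1 (hW t)
  have hc : ∀ x, ∃ l a, pv (y x) (G.q l a) ≠ 0 := fun x => by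
    obtain ⟨T₀, a1, a2, -, -, a5, a6⟩ := Emb96.exists_rs Sum.inl R.T R.ok
    obtain ⟨z, hz⟩ := a5 x
    have := G.cov _ T₀ a1 (a2.trans (by rw [R.deg]; rfl)) (fun z => by
      obtain ⟨x, hx⟩ := a6 z
      exact hx ▸ hO x) z
    exact (show T₀.ev z = y x from hz) ▸ this
  have hτ : ∀ v j, R.T.vd v (Sum.inl j) ≠ 0 → ∃ τ, R.T.vd v τ = 1 ∧ R.T.deg τ = 1 := by
    intro v j hj
    obtain ⟨x, ρ, c, h, hρ0, hh, hP, -⟩ := R.chart v
    have key : ∀ z₀, ∃ u ∈ (rd W).O, (rd W).p u ≠ z₀ ∧ x + ρ * u ∈ s := fun z₀ => by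
      obtain ⟨e, he, h1, u, hu, h2, h3⟩ := two_roots R hj (hh _) (hP _) z₀
      refine ⟨u, hu, h2, Finset.mem_biUnion.2 ⟨(j, e), Finset.mem_product.2 ⟨Finset.mem_univ _,
        Finset.mem_range.2 (he.trans_le ?_)⟩, Multiset.mem_toFinset.2 ((mem_roots h1).2 h3)⟩⟩
      exact Nat.succ_le_succ (Nat.mul_le_mul_left _ (Finset.single_le_sum
        (f := fun j => Fintype.card (bs io j)) (fun _ _ => Nat.zero_le _) (Finset.mem_univ j)))
    obtain ⟨u₁, a1, -, a3⟩ := key 0
    obtain ⟨u₂, b1, b2, b3⟩ := key ((rd W).p u₁)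
    have hρ : x + ρ * u₁ ≠ x + ρ * u₂ := fun e =>
      b2 (congrArg _ (mul_left_cancel₀ hρ0 (add_left_cancel e)).symm)
    let p : P := ⟨(_, _), Finset.mem_offDiag.2 ⟨a3, b3, hρ⟩⟩
    have h1 : R.T.deg (Sum.inr p) = 1 := by rw [R.deg]; rfl
    have h2 := vd_pair R (hh (Sum.inr p)) (hP _) (u := fun b : Bool => cond b u₁ u₂)
      (fun b => by cases b <;> assumption) (fun b => by cases b <;> rfl) (i₁ := true) (i₂ := false)
      b2.symm
    have h3 := vd_le_deg R.T v (Sum.inr p)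
    exact ⟨Sum.inr p, by omega, h1⟩
  obtain ⟨κ, -, g, hg, hgq⟩ := exists_g G (M := ∑ l, ∑ j, G.m l j) (fun l j =>
    (Finset.single_le_sum (f := G.m l) (fun _ _ => Nat.zero_le _) (Finset.mem_univ j)).trans
      (Finset.single_le_sum (f := fun l => ∑ j, G.m l j) (fun _ _ => Nat.zero_le _)
        (Finset.mem_univ l))) R.ok Sum.inl (fun j i => fn_ev R.ok (Sum.inl j) i) h0 hO hc hτ
  choose σ h1 h2 using fun a => exists_lift R (hg a)
  have hg0 : ∀ x, ∃ a, g a x ≠ 0 := fun x => by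
    obtain ⟨l, b, hb⟩ := hc x
    obtain ⟨ν, h3, h4⟩ := hgq x l ⟨b, hb⟩
    exact ⟨b, h4 b ▸ mul_ne_zero h3 hb⟩
  let n := dot κ (Sum.elim d fun _ : P => 1)
  let f : (j : Option J) → io j → L[X] := fun j => match j with
    | none => σ
    | some j => ξ.f j
  have hf : Cp (exd d n) f := by
    refine Vb37.cp_of_closed (RingHom.id L) ?_ ?_
    · rintro (_ | j) i
      · exact h1 i
      · exact ξ.cp.1 j i
    · rintro (_ | j) t
      · obtain ⟨a, ha⟩ := hg0 (R.sp t)
        refine ⟨a, fun h => ha ?_⟩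
        rw [Polynomial.map_id] at h
        rw [← (h2 a t).2, Red.nv, show hv (dot κ _) (σ a) t = 0 from h, mul_zero, Rd.p_zero]
      · exact (nz_pt ξ t j).imp fun i h => by rwa [Polynomial.map_id]
  refine ⟨n, ⟨f, ξ.x, hf⟩, rfl, fun t => ?_⟩
  let c : Option J → L := fun j => match j with
    | none => ∏ j, R.nrm t j ^ κ j
    | some j => R.nrm t (Sum.inl j)
  have e : redP (plV W) (scl c ((⟨f, ξ.x, hf⟩ : Dat io (exd d n) I L).pt t)) =
      exP (y (R.sp t)) fun a => g a (R.sp t) := by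
    funext j i
    rcases j with _ | j
    · exact (h2 i t).2
    · exact R.ev_sp t (Sum.inl j) i
  refine (red_iff T' (c := c) ?_ ?_).2 ?_
  · rintro (_ | j) i
    · exact (h2 i t).1
    · exact R.nrm_mem t (Sum.inl j) i
  · rw [e]
    rintro (_ | j)
    · exact hg0 _
    · exact h0 _ j
  · obtain ⟨l, hl⟩ := hc (R.sp t)
    obtain ⟨ν, h3, h4⟩ := hgq _ l hl
    have h5 := (on_scl_iff T' (c := fun j => Option.elim j ν fun _ => 1)
      (by rintro (_ | j); exacts [h3, one_ne_zero])).2 (G.sec _ _ l (h0 _) (hO _) hl)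
    rw [e]
    refine (congrArg T'.On ?_).mpr h5
    funext j i
    rcases j with _ | j
    · exact h4 i
    · exact (one_mul _).symm

end Crest.Agent.X262.Emb71
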