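import Crest.Agent.X262.Emb71.Lf3
import Crest.Agent.X262.Emb96.Loc

/-!
# Row 262, road B, EMB (helper71), part 7: liftable data

* `lim`, `exists_cover` : compactness of the space of valuation rings (road of helper36);
* `lftStmt` : `Emb.LftStmt`.
-/

set_option autoImplicit false
set_option linter.unusedSectionVars false

noncomputable section

namespace Crest.Agent.X262.Emb71

open Polynomial Filter Crest.Agent.X277 Crest.Agent.X277.BD Crest.Agent.X262.Vb
open Crest.Agent.X277.BD.Cyc (Rf plV lnr_plV)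
open Crest.Agent.X262.Bub96 Crest.Agent.X262.Emb
open Crest.Agent.X262.Node22 (scl)
open Crest.Agent.X262.Lft78 (RedOn LocStmt)

section Ult

variable {F ι : Type} [Field F] [Algebra ℂ F] (U : Ultrafilter ι) (W : ι → RZ ℂ F)

/-- the limit of a family of valuation rings -/
def lim : RZ ℂ F :=
  ⟨{ carrier := {x | ∀ᶠ i in U, x ∈ (W i).1}
     mul_mem' := fun h h' => (Eventually.and h h').mono fun _ hi => mul_mem hi.1 hi.2
     one_mem' := Eventually.of_forall fun _ => one_mem _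
     add_mem' := fun h h' => (Eventually.and h h').mono fun _ hi => add_mem hi.1 hi.2
     zero_mem' := Eventually.of_forall fun _ => zero_mem _
     neg_mem' := fun h => Eventually.mono h fun _ hi => neg_mem hi
     mem_or_inv_mem' := fun x => Ultrafilter.eventually_or.1
       (Eventually.of_forall fun i => (W i).1.mem_or_inv_mem x) },
    fun c => Eventually.of_forall fun i => (W i).2 c⟩

theorem lim_le {x y : F} : (lim U W).v x ≤ (lim U W).v y ↔ ∀ᶠ i in U, (W i).v x ≤ (W i).v y := by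
  by_cases hy : y = 0
  · simp [hy]
  · simp only [RZ.le_iff hy]
    rfl

theorem lim_lt {x y : F} : (lim U W).v x < (lim U W).v y ↔ ∀ᶠ i in U, (W i).v x < (W i).v y := by
  simp only [← not_le, lim_le, Ultrafilter.eventually_not]

end Ult

section Gen

variable {J : Type} [Fintype J] [DecidableEq J] {io : J → Type} [∀ j, Fintype (io j)]
  [∀ j, DecidableEq (io j)] {A : Type} [Fintype A] {T : Tgt io A} {d : J → ℕ} {N : ℕ}
  {I K L : Type} [Field K] [Algebra ℂ K] [Field L] [Algebra ℂ L]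

theorem lt_lw {y : Pnt io K} (hy : NZ y) {W : RZ ℂ K} {a : K} {κ : J → ℕ} :
    W.v a < (lw κ y).val W ↔ ∃ e : ∀ j, io j, W.v a < W.v (∏ j, y j (e j) ^ κ j) := by
  rw [val_lw]
  constructor
  · intro h
    choose e he using fun j => exists_ln hy j W
    exact ⟨e, by simpa only [map_prod, map_pow, he] using h⟩
  · rintro ⟨e, h⟩
    rw [map_prod] at h
    exact h.trans_le (Finset.prod_le_prod' fun j _ => by
      rw [map_pow]
      exact pow_le_pow_left' (le_ln y j _ W) _)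

theorem redOn_lim {ι : Type} (U : Ultrafilter ι) (W : ι → RZ ℂ K) {y : Pnt io K} (hy : NZ y) :
    RedOn T (lim U W) y ↔ ∀ᶠ i in U, RedOn T (W i) y := by
  simp only [RedOn, lt_lw hy, lim_lt, eventually_all, Ultrafilter.eventually_exists_iff]

theorem redOn_map (α : K →ₐ[ℂ] L) (W : RZ ℂ L) (ξ : Dat io d I K) (t : Option K) :
    RedOn T W ((ξ.map α).pt (t.map α)) ↔ RedOn T (cm (α : K →+* L) (alg_ov α) W) (ξ.pt t) := by
  refine forall_congr' fun a => ?_
  rw [pt_map, Bub96.lw_map, pb, val_mp_gen, show pv (fun j i => α (ξ.pt t j i)) (T.F a) = _ from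
    pv_map α _ _, ← v_gen]
  exact (v_cm_lt_iff _ _).symm

theorem spread [Finite I] {ξ : Dat io d I K} (h : ξ.NrmUp N) (hk : ∀ a j, T.k a j ≤ N)
    {W : RZ ℂ K} (hq : ∀ q, RedOn T W (ξ.pt (ξ.x q))) (t : Option K) : RedOn T W (ξ.pt t) := by
  intro a
  obtain ⟨σ, h1, h2⟩ := fn_pv (t := Tr.leaf d ξ.f) (cop_of_cp ξ.cp) (T.hom a)
  have h3 : ∀ t, hv (Tr.dot (T.k a) d) (σ ()) t = pv (ξ.pt t) (T.F a) := fun t => h2 ((), t)
  have h4 := Emb96.lt_of_nrm (h _ (hk a)) (AlgHom.id ℂ K) W (V := W) rfl (σ := σ ()) h1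
    (fun q => h3 _ ▸ hq q a) t
  rwa [Emb96.dat_map_id, show (σ ()).map (AlgHom.id ℂ K : K →+* K) = σ () from Polynomial.map_id,
    h3] at h4

theorem on_red_iff [Fintype I] (ξ : Dat io d I K) (W : RZ ℂ K) :
    (ξ.cfg.red (plV W)).On T ↔ ∀ q, RedOn T W (ξ.pt (ξ.x q)) := by
  refine forall_congr' fun q => ?_
  have h : Prim W (scl (ξ.cfg.nrm W q) (ξ.pt (ξ.x q))) :=
    prim_scl (nz_pt ξ _) fun j => by rw [Cfg.nrm, map_inv₀, v_gen]; rfl
  exact (red_iff T (fun j => (h j).1) (Prim.nz_red (p := plV W) h)).symm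

open Classical in
/-- the roots of the Vandermonde forms -/
def rts (f : (j : J) → io j → L[X]) (B : ℕ) : Finset L :=
  (Finset.univ ×ˢ Finset.range B).biUnion fun x : J × ℕ => (lf f x.1 x.2).roots.toFinset

theorem nrm_of_rts [IsAlgClosed L] [Nonempty I] (β : K →ₐ[ℂ] L) {ξ : Dat io d I K}
    (h : ∀ r ∈ rts (ξ.map β).f (nb io d N), ∃ q, (ξ.x q).map β = some r) : ξ.NrmUp N := by
  classical
  refine nrmUp_of_roots fun j c hc h0 => ?_
  have h1 : ∀ r ∈ ((lf ξ.f j c).map (β : K →+* L)).roots, ∃ q, (ξ.x q).map β = some r :=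
    fun r hr => h r (Finset.mem_biUnion.2 ⟨(j, c), by simpa using hc, Multiset.mem_toFinset.2
      ((lf_map (β : K →+* L) ξ.f j c).symm ▸ hr)⟩)
  refine ⟨Splits.of_splits_map (β : K →+* L) (IsAlgClosed.splits _) fun r hr => ?_, fun r hr => ?_⟩
  · obtain ⟨q, hq⟩ := h1 r hr
    obtain ⟨u, -, hu⟩ := Option.map_eq_some_iff.1 hq
    exact ⟨u, hu⟩
  · obtain ⟨q, hq⟩ := h1 (β r) ((mem_roots (Polynomial.map_ne_zero h0)).2 hr.map)
    obtain ⟨u, h2, hu⟩ := Option.map_eq_some_iff.1 hq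
    exact ⟨q, β.injective hu ▸ h2⟩

theorem exists_bd (T : Tgt io A) (N : ℕ) : ∃ N', N ≤ N' ∧ ∀ a j, T.k a j ≤ N' :=
  ⟨N + ∑ a, ∑ j, T.k a j, Nat.le_add_right _ _, fun a j =>
    ((Finset.single_le_sum (f := T.k a) (fun _ _ => Nat.zero_le _) (Finset.mem_univ j)).trans
      (Finset.single_le_sum (f := fun a => ∑ j, T.k a j) (fun _ _ => Nat.zero_le _)
        (Finset.mem_univ a))).trans (Nat.le_add_left _ _)⟩

theorem exists_fin [IsAlgClosed L] (ξ : Dat io d I L) (T : Tgt io A) : ∃ s : Finset L, ∀ W,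
    (∀ q : Option s, RedOn T W (ξ.pt (q.map Subtype.val))) → ∀ t, RedOn T W (ξ.pt t) := by
  obtain ⟨N, -, hN⟩ := exists_bd T 0
  refine ⟨rts ξ.f (nb io d N), fun W h => spread (ξ := ⟨ξ.f, fun q : Option (rts ξ.f (nb io d N)) =>
    q.map Subtype.val, ξ.cp⟩) (nrm_of_rts (AlgHom.id ℂ L) fun r hr => ?_) hN h⟩
  rw [Emb96.dat_map_id] at hr
  exact ⟨some ⟨r, hr⟩, rfl⟩

end Gen

variable {J : Type} [Fintype J] [DecidableEq J] {io : Option J → Type} [∀ j, Fintype (io j)]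
  [∀ j, DecidableEq (io j)] {A A' : Type} [Fintype A] [Fintype A'] {T : Tgt (bs io) A}
  {T' : Tgt io A'} {d : J → ℕ}

theorem exists_cover (G : Gr T T' d) {M L : Type} [Field L] [Algebra ℂ L] [IsAlgClosed L]
    (ξ : Dat (bs io) d M L) : ∃ Λ : Finset {c : Σ n, Dat io (exd d n) M L // prD c.2 = ξ},
    ∀ W, (∀ t, RedOn T W (ξ.pt t)) → ∃ c ∈ Λ, ∀ t, RedOn T' W (c.1.2.pt t) := by
  classical
  by_contra hc
  simp only [not_exists, not_forall, not_and] at hc
  choose W h1 h2 using hc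
  let U := Ultrafilter.of (atTop : Filter (Finset {c : Σ n, Dat io (exd d n) M L // prD c.2 = ξ}))
  obtain ⟨n, ζ, h3, h4⟩ := locStmt G ξ (lim U W) fun t =>
    (redOn_lim U W (nz_pt ξ t)).2 (Eventually.of_forall fun Λ => h1 Λ t)
  obtain ⟨s, hs⟩ := exists_fin ζ T'
  obtain ⟨Λ, h5, h6⟩ := ((eventually_all.2 fun q : Option s =>
    (redOn_lim U W (nz_pt ζ _)).1 (h4 (q.map Subtype.val))).and
    (Ultrafilter.of_le atTop (eventually_ge_atTop {⟨⟨n, ζ⟩, h3⟩}))).exists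
  obtain ⟨t, ht⟩ := h2 Λ ⟨⟨n, ζ⟩, h3⟩ (Finset.singleton_subset_iff.1 h6)
  exact ht (hs _ h5 t)

theorem lftStmt : LftStmt := by
  intro J _ _ io _ _ A A' _ _ T T' d G N M K _ _ _ _ ξ
  classical
  let Ω := AlgebraicClosure K
  let ι := IsScalarTower.toAlgHom ℂ K Ω
  obtain ⟨Λ, hΛ⟩ := exists_cover G (ξ.map ι)
  obtain ⟨N', hN, hk⟩ := exists_bd T N
  let s : Finset Ω := rts (ξ.map ι).f (nb (bs io) d N') ∪
    Λ.biUnion fun c => rts c.1.2.f (nb io (exd d c.1.1) N)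
  let Z : Finset Ω := s ∪ Λ.biUnion fun c => Finset.univ.biUnion fun a => (c.1.2.f none a).coeffs
  let L := IntermediateField.adjoin K (Z : Set Ω)
  have hZ : ∀ r ∈ Z, r ∈ L := fun r hr => IntermediateField.subset_adjoin K _ hr
  have : FiniteDimensional K L :=
    IntermediateField.finiteDimensional_adjoin fun x _ => Algebra.IsIntegral.isIntegral x
  let θ := IsScalarTower.toAlgHom ℂ K L
  let β : L →ₐ[ℂ] Ω := L.val.restrictScalars ℂ
  let η : Dat (bs io) d (M ⊕ Option s) L := ⟨(ξ.map θ).f, Sum.elim (ξ.map θ).x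
    (Option.map fun r => ⟨r.1, hZ _ (Finset.mem_union_left _ r.2)⟩), (ξ.map θ).cp⟩
  have hη : (η.map β).f = (ξ.map ι).f := congrArg Dat.f (dat_map_map ξ θ β)
  have hs : ∀ r ∈ s, ∃ q, (η.x q).map β = some r := fun r hr => ⟨Sum.inr (some ⟨r, hr⟩), rfl⟩
  have h1 : η.NrmUp N' := nrm_of_rts β fun r hr => hs r (Finset.mem_union_left _ (hη ▸ hr))
  refine ⟨L, inferInstance, inferInstance, Algebra.EssFiniteType.comp ℂ K L, θ, _, inferInstance,
    Sum.inl, η, by rw [deg_tower]; exact Module.finrank_pos, rfl,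
    fun κ hκ => h1 κ fun j => (hκ j).trans hN, fun W hW => ?_⟩
  obtain ⟨W', rfl⟩ := cm_surjective β W
  obtain ⟨c, hc, h2⟩ := hΛ W' fun t => by
    have := spread (ξ := η.map β) (fun κ hκ => Emb96.nrm_map' (h1 κ hκ) β) hk
      (fun q => (redOn_map β W' η _).2 ((on_red_iff η _).1 hW q)) t
    rwa [show (η.map β).pt t = (ξ.map ι).pt t from
      congrArg (fun f : (j : J) → bs io j → Polynomial Ω => fun j i => hv (d j) (f j i) t) hη] at this
  obtain ⟨⟨n, ζ⟩, h3⟩ := c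
  have h4 : ∀ a, ∃ σ : L[X], σ.map (β : L →+* Ω) = ζ.f none a := fun a =>
    (mem_lifts _).1 ((lifts_iff_coeff_lifts _).2 fun l => by
      by_cases h0 : (ζ.f none a).coeff l = 0
      · exact ⟨0, h0 ▸ map_zero _⟩
      · exact ⟨⟨_, hZ _ (Finset.mem_union_right _ (Finset.mem_biUnion.2 ⟨_, hc,
          Finset.mem_biUnion.2 ⟨a, Finset.mem_univ _, coeff_mem_coeffs h0⟩⟩))⟩, rfl⟩)
  choose σ hσ using h4
  let f : (j : Option J) → io j → L[X] := fun j => match j with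
    | none => σ
    | some j => η.f j
  have hf : ∀ j i, (f j i).map (β : L →+* Ω) = ζ.f j i := by
    rintro (_ | j) i
    · exact hσ i
    · exact congrFun (congrFun (hη.trans (congrArg Dat.f h3).symm) j) i
  let ζ₀ : Dat io (exd d n) (M ⊕ Option s) L := ⟨f, η.x, Vb37.cp_of_closed (β : L →+* Ω)
    (fun j i => (natDegree_map (β : L →+* Ω)).ge.trans (hf j i ▸ ζ.cp.1 j i))
    fun j t => (nz_pt ζ t j).imp fun i h => hf j i ▸ h⟩
  have h5 : (ζ₀.map β).f = ζ.f := _root_.funext fun j => _root_.funext (hf j)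
  have h6 : ζ₀.NrmUp N := nrm_of_rts β fun r hr => hs r (Finset.mem_union_right _
    (Finset.mem_biUnion.2 ⟨_, hc, h5 ▸ hr⟩))
  refine ⟨n, ζ₀, rfl, (on_red_iff ζ₀ _).2 fun q => (redOn_map β W' ζ₀ _).1 ?_, tl_red h6 _,
    fun L' _ _ α V _ κ hκ => h6 κ hκ L' α V⟩
  rw [show (ζ₀.map β).pt _ = ζ.pt _ from congrArg
    (fun f : (j : Option J) → io j → Polynomial Ω => fun j i => hv (exd d n j) (f j i) _) h5]
  exact h2 _

end Crest.Agent.X262.Emb71
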